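import Vale.Agent.P207.C1.Growth
import Vale.Agent.P207.BlkDB
import Vale.Agent.P207.BlkP2
import Vale.Agent.P207.BlkL
import Vale.Agent.P207.Q.CobFlow

/-!
# P207, block AR: growth of the volume of balls and the exponential moments of `∫ (t - h)`

If the number of homotopy classes of length `≤ R` is `O(exp (H R))` and the Jacobian of the
exponential map is bounded from below by `c exp (∫ t)`, then the exponential moments
`∫ exp (∫₀ᵀ (t - H) ∘ φ_s ds) dm` of the Liouville measure are bounded uniformly in `T`.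
-/

open scoped Manifold ContDiff ENNReal Topology
open Bundle MeasureTheory Set Filter

noncomputable section

namespace Vale.Agent.P207

open Vale.Agent.P255 (RMetric coefIn Gam Riem IsGeo Metric Npc ExpSys toMetric geo expg cc)

variable {n : ℕ} {M : Type} [TopologicalSpace M] [ChartedSpace (EV n) M]
  [IsManifold 𝓘(ℝ, EV n) ∞ M] [CompactSpace M] [T2Space M]

namespace Area

variable {g : RMetric (EV n) M}

/-- `radial`, as a function on `ℝⁿ` -/
def rad (g : RMetric (EV n) M) (Q : UT g → ℝ) (x : M) (v : EV n) : ℝ := radial g Q x v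

omit [CompactSpace M] [T2Space M] in
theorem rad_nonneg {Q : UT g → ℝ} (hQ0 : ∀ p, 0 ≤ Q p) (x : M) (v : EV n) : 0 ≤ rad g Q x v := by
  unfold rad radial
  split_ifs
  · exact le_rfl
  · exact hQ0 _

theorem rad_smul (h : Npc (mt g)) (Q : UT g → ℝ) (x : M) {R : ℝ} (hR : 0 < R) (v : EV n) :
    rad g Q x (R • v) = rad g Q x v := by
  by_cases hv : v = 0
  · rw [hv, smul_zero]
  · have hRv : R • v ≠ 0 := smul_ne_zero hR.ne' hv
    have h1 : rad g Q x (R • v : EV n) = Q (unitDir g x (R • v : EV n) hRv) := dif_neg hRv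
    have h2 : rad g Q x v = Q (unitDir g x v hv) := dif_neg hv
    rw [h1, h2, DB.unitDir_smul g h x hv hR hRv]

theorem measurable_nm (h : Npc (mt g)) (x : M) : Measurable (nm g x) :=
  (DB.continuous_nm g h x).measurable

theorem integrableOn_rad {Q : UT g → ℝ} (hQ : Continuous Q) (x : M)
    {A : Set (EV n)} (hA : volume A ≠ ⊤) : IntegrableOn (rad g Q x) A := by
  have := compactSpace_UT g
  obtain ⟨C, hC0, hC⟩ := exists_abs_le hQ
  refine Measure.integrableOn_of_bounded (M := C) hA
    (measurable_radial g hQ x).aestronglyMeasurable ?_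
  exact Eventually.of_forall fun v => abs_radial_le g hC hC0 x v

/-- the ball of radius `R` -/
def bal (g : RMetric (EV n) M) (x : M) (R : ℝ) : Set (EV n) := {v | nm g x v < R}

theorem measurableSet_bal (h : Npc (mt g)) (x : M) (R : ℝ) : MeasurableSet (bal g x R) :=
  measurableSet_lt (measurable_nm h x) measurable_const

theorem volume_bal (h : Npc (mt g)) (x : M) (R : ℝ) : volume (bal g x R) ≠ ⊤ :=
  (DB.volume_nm_lt_top g h x R).ne

/-- homogeneity -/
theorem integral_rad_bal (h : Npc (mt g)) (Q : UT g → ℝ) (x : M) {R : ℝ}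
    (hR : 0 < R) : ∫ v in bal g x R, rad g Q x v = R ^ n * ∫ v in bal g x 1, rad g Q x v := by
  set f : EV n → ℝ := (bal g x R).indicator (rad g Q x) with hf
  have h1 := Measure.integral_comp_smul_of_nonneg (volume : Measure (EV n)) f R (hR := hR.le)
  have h2 : (fun v : EV n => f (R • v)) = (bal g x 1).indicator (rad g Q x) := by
    funext v
    have e : R • v ∈ bal g x R ↔ v ∈ bal g x 1 := by
      change nm g x (R • v) < R ↔ nm g x v < 1
      rw [DB.nm_smul g h, abs_of_pos hR]
      constructor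
      · intro h3
        by_contra h4
        push Not at h4
        nlinarith
      · intro h3
        nlinarith
    by_cases hv : v ∈ bal g x 1
    · rw [hf, indicator_of_mem hv, indicator_of_mem (e.2 hv)]
      exact rad_smul h Q x hR v
    · rw [hf, indicator_of_notMem hv, indicator_of_notMem (fun h3 => hv (e.1 h3))]
  rw [h2, integral_indicator (measurableSet_bal h x 1), hf,
    integral_indicator (measurableSet_bal h x R), finrank_euclideanSpace,
    Fintype.card_fin, smul_eq_mul] at h1
  rw [h1, ← mul_assoc, mul_inv_cancel₀ (pow_ne_zero _ hR.ne'), one_mul]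

/-- the shell `T ≤ |v| < T + 1` -/
def shell (g : RMetric (EV n) M) (x : M) (T : ℝ) : Set (EV n) := {v | T ≤ nm g x v ∧ nm g x v < T + 1}

theorem measurableSet_shell (h : Npc (mt g)) (x : M) (T : ℝ) : MeasurableSet (shell g x T) :=
  (measurableSet_le measurable_const (measurable_nm h x)).inter
    (measurableSet_lt (measurable_nm h x) measurable_const)

theorem volume_shell (h : Npc (mt g)) (x : M) (T : ℝ) : volume (shell g x T) ≠ ⊤ :=
  ((measure_mono fun _ hv => hv.2).trans_lt (DB.volume_nm_lt_top g h x (T + 1))).ne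

theorem le_integral_shell (hn : 1 ≤ n) (h : Npc (mt g)) {Q : UT g → ℝ} (hQ : Continuous Q)
    (hQ0 : ∀ p, 0 ≤ Q p) (x : M) {T : ℝ} (hT : 1 ≤ T) :
    (T + 1) ^ (n - 1) * ∫ v in bal g x 1, rad g Q x v ≤ ∫ v in shell g x T, rad g Q x v := by
  have e : shell g x T = bal g x (T + 1) \ bal g x T := by
    ext v
    constructor
    · rintro ⟨h1, h2⟩
      exact ⟨h2, fun h3 => absurd h1 (not_le.2 h3)⟩
    · rintro ⟨h1, h2⟩
      exact ⟨not_lt.1 h2, h1⟩
  have hsub : bal g x T ⊆ bal g x (T + 1) := fun v hv => lt_trans hv (lt_add_one T)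
  rw [e, setIntegral_sdiff (measurableSet_bal h x T)
    (integrableOn_rad hQ x (volume_bal h x (T + 1))) hsub,
    integral_rad_bal h Q x (R := T + 1) (by linarith), integral_rad_bal h Q x (R := T) (by linarith),
    ← sub_mul]
  apply mul_le_mul_of_nonneg_right
  · obtain ⟨k, rfl⟩ : ∃ k, n = k + 1 := ⟨n - 1, by omega⟩
    have h1 : T ^ k ≤ (T + 1) ^ k := pow_le_pow_left₀ (by linarith) (by linarith) k
    rw [Nat.add_sub_cancel, pow_succ, pow_succ]
    nlinarith
  · exact setIntegral_nonneg (measurableSet_bal h x 1) fun v _ => rad_nonneg hQ0 x v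

/-- the number of preimages in the shell -/
theorem encard_fiber_le (h : Npc (mt g)) {H C : ℝ}
    (hG : ∀ (x y : M) (R : ℝ), 0 ≤ R → {α : Cl x y | (sys g h).len α ≤ R}.Finite ∧
      ({α : Cl x y | (sys g h).len α ≤ R}.ncard : ℝ) ≤ C * Real.exp (H * R))
    (x z : M) {T : ℝ} (hT : 0 ≤ T) :
    {v | v ∈ shell g x T ∧ expg (mt g) x v = z}.encard ≤ (⌊C * Real.exp (H * (T + 1))⌋₊ : ℕ) := by
  obtain ⟨h1, h2⟩ := ncard_fiber_le hG x z (R := T + 1) (by linarith)
  have hsub : {v | v ∈ shell g x T ∧ expg (mt g) x v = z} ⊆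
      {v : EV n | (sys g h).e x v = z ∧ (sys g h).nrm x v ≤ T + 1} := fun v hv =>
    ⟨hv.2, hv.1.2.le⟩
  refine (encard_le_encard hsub).trans ?_
  rw [← h1.cast_ncard_eq]
  exact_mod_cast Nat.le_floor h2

/-- the potential along the orbit -/
def II (φ : ℝ → UT g → UT g) (t : UT g → ℝ) (T : ℝ) (p : UT g) : ℝ :=
  ∫ s in (0 : ℝ)..T, t (φ s p)

theorem continuous_II {φ : ℝ → UT g → UT g} (hφ : IsGeoFlow g φ) {t : UT g → ℝ} (ht : Continuous t)
    (T : ℝ) : Continuous (II φ t T) := by
  unfold II
  apply intervalIntegral.continuous_parametric_intervalIntegral_of_continuous'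
  exact ht.comp (hφ.continuous.comp (by fun_prop : Continuous fun q : UT g × ℝ => (q.2, q.1)))

theorem II_sub_le {φ : ℝ → UT g → UT g} (hφ : IsGeoFlow g φ) {t : UT g → ℝ} (ht : Continuous t)
    {B : ℝ} (hB : ∀ p, |t p| ≤ B) {T r : ℝ} (hTr : T ≤ r) (hr : r ≤ T + 1) (p : UT g) :
    II φ t T p - B ≤ II φ t r p := by
  have hc : Continuous fun s : ℝ => t (φ s p) := ht.comp (hφ.continuous_left p)
  have h1 : II φ t T p + ∫ s in T..r, t (φ s p) = II φ t r p :=
    intervalIntegral.integral_add_adjacent_intervals (hc.intervalIntegrable _ _)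
      (hc.intervalIntegrable _ _)
  have h2 : |∫ s in T..r, t (φ s p)| ≤ B * |r - T| := by
    have := intervalIntegral.norm_integral_le_of_norm_le_const (a := T) (b := r) (C := B)
      (f := fun s => t (φ s p)) (fun s _ => hB _)
    exact this
  have hB0 : 0 ≤ B := (abs_nonneg _).trans (hB p)
  have h3 : B * |r - T| ≤ B := by
    rw [abs_of_nonneg (by linarith)]
    nlinarith
  have h4 := neg_abs_le (∫ s in T..r, t (φ s p))
  linarith

theorem floor_le_abs (C x : ℝ) :
    ((⌊C * Real.exp x⌋₊ : ℕ) : ℝ) ≤ |C| * Real.exp x := by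
  have h0 := Real.exp_pos x
  rcases le_or_gt 0 (C * Real.exp x) with h1 | h1
  · exact (Nat.floor_le h1).trans (mul_le_mul_of_nonneg_right (le_abs_self C) h0.le)
  · rw [Nat.floor_of_nonpos h1.le]
    simp only [Nat.cast_zero]
    positivity

/-- The bound of the spherical averages. -/
theorem exists_sphAvg_le [MeasurableSpace M] [BorelSpace M] (hn : 1 ≤ n)
    {φ : ℝ → UT g → UT g} (hφ : IsGeoFlow g φ) {μ : Measure M} (hμ : IsRiemVol g μ)
    (h : Npc (mt g)) {H : ℝ} (hG : GrowthLE (sys g h) H)
    {t : UT g → ℝ} (ht : Continuous t) {c : ℝ} (hc : 0 < c)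
    (hj : ∀ (p : UT g) (r : ℝ), 1 ≤ r →
      c * dens0 g p.pt * Real.exp (∫ s in (0 : ℝ)..r, t (φ s p)) ≤
        r ^ (n - 1) * jac g p.pt (r • (p.vec : EV n))) :
    ∃ C : ℝ, 0 ≤ C ∧ ∀ T : ℝ, 1 ≤ T → ∀ x : M,
      sphAvg g (fun p => Real.exp (II φ t T p)) x ≤ C * Real.exp (H * T) := by
  have := compactSpace_UT g
  have := hμ.isFiniteMeasure
  obtain ⟨B, hB0, hB⟩ := exists_abs_le ht
  obtain ⟨C, hC⟩ := hG
  obtain ⟨κ, hκ, hvol⟩ := volume_ball_nm (M := M) hn
  refine ⟨|C| * Real.exp H * μ.real univ * Real.exp B / (c * κ), by positivity, ?_⟩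
  intro T hT x
  set Q : UT g → ℝ := fun p => Real.exp (II φ t T p) with hQ
  have hQc : Continuous Q := Real.continuous_exp.comp (continuous_II hφ ht T)
  have hQ0 : ∀ p, 0 ≤ Q p := fun p => (Real.exp_pos _).le
  have hdens : 0 < dens0 g x := dens_pos g x (mem_chart_target (EV n) x)
  set D := c * dens0 g x * Real.exp (-B) / (T + 1) ^ (n - 1) with hD
  have hT1 : 0 < T + 1 := by linarith
  have hD0 : 0 < D := by positivity
  -- pointwise lower bound of the Jacobian
  have hlow : ∀ v ∈ shell g x T, D * rad g Q x v ≤ jac g x v := by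
    rintro v ⟨hv1, hv2⟩
    have hv0 : v ≠ 0 := by
      rintro rfl
      have h0 : nm g x (0 : EV n) = 0 := by
        simp
      linarith
    set r := nm g x v with hr
    have hr0 : 0 < r := by linarith
    set p := unitDir g x v hv0 with hp
    have e1 : rad g Q x v = Q p := dif_neg hv0
    have e2 : r • (p.vec : EV n) = v := by
      have h1 : (p.vec : EV n) = (nm g x v)⁻¹ • v := DB.unitDir_vec g x hv0
      have h2 : r • (p.vec : EV n) = r • ((nm g x v)⁻¹ • v) := congrArg (fun w : EV n => r • w) h1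
      rw [h2, smul_smul, mul_inv_cancel₀ hr0.ne', one_smul]
    have h1 := hj p r (by linarith)
    have e3 : jac g p.pt (r • (p.vec : EV n)) = jac g x v := by
      have : jac g x (r • (p.vec : EV n)) = jac g x v := by rw [e2]
      exact this
    have e4 : dens0 g p.pt = dens0 g x := rfl
    rw [e3, e4] at h1
    have h2 : Real.exp (-B) * Q p ≤ Real.exp (∫ s in (0 : ℝ)..r, t (φ s p)) := by
      rw [hQ, ← Real.exp_add]
      apply Real.exp_le_exp.2
      have := II_sub_le hφ ht hB hv1 hv2.le p
      unfold II at this ⊢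
      linarith
    have h3 : r ^ (n - 1) ≤ (T + 1) ^ (n - 1) := pow_le_pow_left₀ hr0.le hv2.le _
    have hjac0 : 0 ≤ jac g x v := mul_nonneg (abs_nonneg _) (Real.sqrt_nonneg _)
    rw [e1, hD, div_mul_eq_mul_div, div_le_iff₀ (by positivity)]
    calc c * dens0 g x * Real.exp (-B) * Q p = c * dens0 g x * (Real.exp (-B) * Q p) := by ring
      _ ≤ c * dens0 g x * Real.exp (∫ s in (0 : ℝ)..r, t (φ s p)) :=
          mul_le_mul_of_nonneg_left h2 (by positivity)
      _ ≤ r ^ (n - 1) * jac g x v := h1
      _ ≤ (T + 1) ^ (n - 1) * jac g x v := mul_le_mul_of_nonneg_right h3 hjac0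
      _ = jac g x v * (T + 1) ^ (n - 1) := mul_comm _ _
  -- the area formula
  have hT0 : 0 ≤ T := by linarith
  have harea := lintegral_jac_le h hμ x (measurableSet_shell h x T)
    (k := ⌊C * Real.exp (H * (T + 1))⌋₊) (fun z => encard_fiber_le h hC x z hT0)
  have h1 : ∫ v in shell g x T, D * rad g Q x v ≤ |C| * Real.exp (H * (T + 1)) * μ.real univ := by
    have hint : IntegrableOn (fun v => D * rad g Q x v) (shell g x T) :=
      (integrableOn_rad hQc x (volume_shell h x T)).const_mul D
    have h2 : ENNReal.ofReal (∫ v in shell g x T, D * rad g Q x v) ≤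
        (⌊C * Real.exp (H * (T + 1))⌋₊ : ℝ≥0∞) * μ univ := by
      rw [ofReal_integral_eq_lintegral_ofReal hint
        (Eventually.of_forall fun v => mul_nonneg hD0.le (rad_nonneg hQ0 x v))]
      refine le_trans (setLIntegral_mono' (measurableSet_shell h x T) fun v hv => ?_) harea
      exact ENNReal.ofReal_le_ofReal (hlow v hv)
    have h3 : (⌊C * Real.exp (H * (T + 1))⌋₊ : ℝ≥0∞) * μ univ ≤
        ENNReal.ofReal (|C| * Real.exp (H * (T + 1)) * μ.real univ) := by
      rw [ENNReal.ofReal_mul (by positivity), Measure.real, ENNReal.ofReal_toReal (measure_ne_top μ _)]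
      gcongr
      rw [← ENNReal.ofReal_natCast]
      apply ENNReal.ofReal_le_ofReal
      exact floor_le_abs C (H * (T + 1))
    exact (ENNReal.ofReal_le_ofReal_iff (by positivity)).1 (h2.trans h3)
  rw [integral_const_mul] at h1
  have h2 := le_integral_shell hn h hQc hQ0 x hT
  have h3 : D * ((T + 1) ^ (n - 1) * ∫ v in bal g x 1, rad g Q x v) ≤
      |C| * Real.exp (H * (T + 1)) * μ.real univ :=
    (mul_le_mul_of_nonneg_left h2 hD0.le).trans h1
  have h4 : c * dens0 g x * Real.exp (-B) * ∫ v in bal g x 1, rad g Q x v ≤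
      |C| * Real.exp (H * (T + 1)) * μ.real univ := by
    refine le_trans (le_of_eq ?_) h3
    rw [hD]
    field_simp
  -- the spherical average
  have h5 : dens0 g x * volume.real (bal g x 1) = κ := by
    have := hvol g x 1 zero_le_one
    rwa [one_pow, mul_one] at this
  have hvol0 : 0 < volume.real (bal g x 1) := by
    by_contra h0
    push Not at h0
    have := mul_nonpos_of_nonneg_of_nonpos hdens.le h0
    linarith
  have h6 : sphAvg g Q x = (∫ v in bal g x 1, rad g Q x v) / volume.real (bal g x 1) := by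
    unfold sphAvg
    rw [DB.ballAt_eq]
    rfl
  rw [h6, div_le_iff₀ hvol0]
  set J := ∫ v in bal g x 1, rad g Q x v with hJ
  have h7 : J = (c * dens0 g x * Real.exp (-B) * J) * (Real.exp B / (c * dens0 g x)) := by
    have h8 : Real.exp (-B) * Real.exp B = 1 := by rw [← Real.exp_add]; simp
    field_simp
    linear_combination (-J) * h8
  have h9 : Real.exp B / (c * dens0 g x) = Real.exp B / (c * κ) * volume.real (bal g x 1) := by
    rw [← h5]
    field_simp
  have h10 : 0 ≤ Real.exp B / (c * dens0 g x) := by positivity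
  calc J = (c * dens0 g x * Real.exp (-B) * J) * (Real.exp B / (c * dens0 g x)) := h7
    _ ≤ (|C| * Real.exp (H * (T + 1)) * μ.real univ) * (Real.exp B / (c * dens0 g x)) :=
        mul_le_mul_of_nonneg_right h4 h10
    _ = |C| * Real.exp H * μ.real univ * Real.exp B / (c * κ) * Real.exp (H * T) *
        volume.real (bal g x 1) := by
        rw [h9, mul_add, mul_one, Real.exp_add]
        ring

/-- The exponential moments are bounded. -/
theorem exists_exp_bound [MeasurableSpace M] [BorelSpace M] (hn : 1 ≤ n)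
    {φ : ℝ → UT g → UT g} (hφ : IsGeoFlow g φ) {μ : Measure M} {m : Measure (UT g)}
    (hμ : IsRiemVol g μ) (hm : IsLiouville g μ m) (h : Npc (mt g)) {H : ℝ}
    (hG : GrowthLE (sys g h) H) {t : UT g → ℝ} (ht : Continuous t) {c : ℝ} (hc : 0 < c)
    (hj : ∀ (p : UT g) (r : ℝ), 1 ≤ r →
      c * dens0 g p.pt * Real.exp (∫ s in (0 : ℝ)..r, t (φ s p)) ≤
        r ^ (n - 1) * jac g p.pt (r • (p.vec : EV n))) :
    ∃ C : ℝ, ∀ T : ℝ, 0 ≤ T → ∫ p, Real.exp (∫ s in (0 : ℝ)..T, (t (φ s p) - H)) ∂m ≤ C := by
  have := compactSpace_UT g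
  have := hμ.isFiniteMeasure
  have := hm.1
  obtain ⟨B, hB0, hB⟩ := exists_abs_le ht
  obtain ⟨C, hC0, hC⟩ := exists_sphAvg_le hn hφ hμ h hG ht hc hj
  have hpos : 0 < μ.real univ := hm.vol_pos
  have e : ∀ (T : ℝ) (p : UT g), ∫ s in (0 : ℝ)..T, (t (φ s p) - H) = II φ t T p - H * T := by
    intro T p
    have hcont : Continuous fun s : ℝ => t (φ s p) := ht.comp (hφ.continuous_left p)
    rw [intervalIntegral.integral_sub (hcont.intervalIntegrable _ _) intervalIntegrable_const,
      intervalIntegral.integral_const, sub_zero, smul_eq_mul, mul_comm T H]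
    rfl
  have e2 : ∀ T : ℝ, ∫ p, Real.exp (∫ s in (0 : ℝ)..T, (t (φ s p) - H)) ∂m =
      Real.exp (-(H * T)) * ∫ p, Real.exp (II φ t T p) ∂m := by
    intro T
    rw [← integral_const_mul]
    congr 1
    funext p
    rw [e, ← Real.exp_add]
    congr 1
    ring
  refine ⟨max C (Real.exp (B + |H|)), fun T hT => ?_⟩
  rcases le_or_gt 1 T with h1 | h1
  · refine le_trans ?_ (le_max_left _ _)
    have hQc : Continuous fun p => Real.exp (II φ t T p) :=
      Real.continuous_exp.comp (continuous_II hφ ht T)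
    rw [e2, hm.2 _ hQc]
    have h2 : ∫ x, sphAvg g (fun p => Real.exp (II φ t T p)) x ∂μ ≤
        C * Real.exp (H * T) * μ.real univ := by
      calc ∫ x, sphAvg g (fun p => Real.exp (II φ t T p)) x ∂μ
          ≤ ∫ _, C * Real.exp (H * T) ∂μ := by
            apply integral_mono
              ((continuous_sphAvg hn hQc).integrable_of_hasCompactSupport
                (HasCompactSupport.of_compactSpace _)) (integrable_const _)
            intro x
            exact hC T h1 x
        _ = C * Real.exp (H * T) * μ.real univ := by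
            rw [integral_const, smul_eq_mul, mul_comm]
    rw [mul_div_assoc', div_le_iff₀ hpos]
    calc Real.exp (-(H * T)) * ∫ x, sphAvg g (fun p => Real.exp (II φ t T p)) x ∂μ
        ≤ Real.exp (-(H * T)) * (C * Real.exp (H * T) * μ.real univ) :=
          mul_le_mul_of_nonneg_left h2 (Real.exp_pos _).le
      _ = C * μ.real univ * (Real.exp (-(H * T)) * Real.exp (H * T)) := by ring
      _ = C * μ.real univ := by rw [← Real.exp_add]; simp
  · refine le_trans ?_ (le_max_right _ _)
    have h2 : ∀ p : UT g, Real.exp (∫ s in (0 : ℝ)..T, (t (φ s p) - H)) ≤ Real.exp (B + |H|) := by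
      intro p
      apply Real.exp_le_exp.2
      have h3 : |∫ s in (0 : ℝ)..T, (t (φ s p) - H)| ≤ (B + |H|) * |T - 0| := by
        apply intervalIntegral.norm_integral_le_of_norm_le_const (a := 0) (b := T)
          (C := B + |H|) (f := fun s => t (φ s p) - H)
        intro s _
        refine (norm_sub_le _ _).trans ?_
        exact add_le_add (hB _) le_rfl
      have h4 := le_abs_self (∫ s in (0 : ℝ)..T, (t (φ s p) - H))
      have h5 : 0 ≤ B + |H| := by positivity
      rw [sub_zero, abs_of_nonneg hT] at h3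
      nlinarith
    have hcont : Continuous fun p => Real.exp (∫ s in (0 : ℝ)..T, (t (φ s p) - H)) := by
      simp_rw [e]
      exact Real.continuous_exp.comp ((continuous_II hφ ht T).sub continuous_const)
    calc ∫ p, Real.exp (∫ s in (0 : ℝ)..T, (t (φ s p) - H)) ∂m
        ≤ ∫ _, Real.exp (B + |H|) ∂m :=
          integral_mono (hcont.integrable_of_hasCompactSupport (HasCompactSupport.of_compactSpace _))
            (integrable_const _) h2
      _ = Real.exp (B + |H|) := by simp

open Vale.Agent.P207.Q (MFlow WW)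

/-- the geodesic flow with the Liouville measure -/
theorem mflow [MeasurableSpace M] [BorelSpace M] (hn : 1 ≤ n) {φ : ℝ → UT g → UT g}
    (hφ : IsGeoFlow g φ) {μ : Measure M} {m : Measure (UT g)} (hμ : IsRiemVol g μ)
    (hm : IsLiouville g μ m) : MFlow m φ := by
  have := secondCountable_UT g
  exact ⟨hφ.continuous.measurable, hφ.zero, fun s t x => hφ.add s t x,
    fun t => IsLiouville.measurePreserving hn hφ hμ hm t⟩

theorem exists_WW_bound [MeasurableSpace M] [BorelSpace M] (hn : 1 ≤ n)
    {φ : ℝ → UT g → UT g} (hφ : IsGeoFlow g φ) {μ : Measure M} {m : Measure (UT g)}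
    (hμ : IsRiemVol g μ) (hm : IsLiouville g μ m) (h : Npc (mt g)) {H : ℝ}
    (hG : GrowthLE (sys g h) H) {t : UT g → ℝ} (ht : Continuous t) {c : ℝ} (hc : 0 < c)
    (hj : ∀ (p : UT g) (r : ℝ), 1 ≤ r →
      c * dens0 g p.pt * Real.exp (∫ s in (0 : ℝ)..r, t (φ s p)) ≤
        r ^ (n - 1) * jac g p.pt (r • (p.vec : EV n))) :
    ∃ C : ℝ, ∀ T : ℝ, 0 ≤ T → ∫ p, Real.exp (WW φ (fun p => t p - H) T p) ∂m ≤ C :=
  exists_exp_bound hn hφ hμ hm h hG ht hc hj

/-- `∫ ∫₀ᵀ t = T ∫ t` -/
theorem integral_II [MeasurableSpace M] [BorelSpace M] (hn : 1 ≤ n)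
    {φ : ℝ → UT g → UT g} (hφ : IsGeoFlow g φ) {μ : Measure M} {m : Measure (UT g)}
    (hμ : IsRiemVol g μ) (hm : IsLiouville g μ m) {t : UT g → ℝ} (ht : Continuous t) (T : ℝ) :
    ∫ p, II φ t T p ∂m = T * ∫ p, t p ∂m := by
  have := compactSpace_UT g
  have := hm.1
  have hti : Integrable t m := ht.integrable_of_hasCompactSupport (HasCompactSupport.of_compactSpace _)
  obtain ⟨B, hB0, hB⟩ := exists_abs_le ht
  set c := ∫ p, t p ∂m with hc
  have h1 := (mflow hn hφ hμ hm).integral_WW (w := fun p => t p - c)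
    (ht.measurable.sub_const c) (K := B + |c|) (fun p => (abs_sub _ _).trans
      (add_le_add (hB p) le_rfl)) (by
      rw [integral_sub hti (integrable_const c), integral_const]
      simp [hc]) T
  have e : ∀ p : UT g, WW φ (fun p => t p - c) T p = II φ t T p - c * T := by
    intro p
    have hcont : Continuous fun s : ℝ => t (φ s p) := ht.comp (hφ.continuous_left p)
    unfold WW
    rw [intervalIntegral.integral_sub (hcont.intervalIntegrable _ _) intervalIntegrable_const,
      intervalIntegral.integral_const, sub_zero, smul_eq_mul, mul_comm T c]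
    rfl
  simp_rw [e] at h1
  have hII : Integrable (II φ t T) m :=
    (continuous_II hφ ht T).integrable_of_hasCompactSupport (HasCompactSupport.of_compactSpace _)
  rw [integral_sub hII (integrable_const _), integral_const] at h1
  simp only [probReal_univ, smul_eq_mul, one_mul] at h1
  linarith

/-- `∫ t dm ≤ H` -/
theorem integral_le_of_growth [MeasurableSpace M] [BorelSpace M] (hn : 1 ≤ n)
    {φ : ℝ → UT g → UT g} (hφ : IsGeoFlow g φ) {μ : Measure M} {m : Measure (UT g)}
    (hμ : IsRiemVol g μ) (hm : IsLiouville g μ m) (h : Npc (mt g)) {H : ℝ}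
    (hG : GrowthLE (sys g h) H) {t : UT g → ℝ} (ht : Continuous t) {c : ℝ} (hc : 0 < c)
    (hj : ∀ (p : UT g) (r : ℝ), 1 ≤ r →
      c * dens0 g p.pt * Real.exp (∫ s in (0 : ℝ)..r, t (φ s p)) ≤
        r ^ (n - 1) * jac g p.pt (r • (p.vec : EV n))) :
    ∫ p, t p ∂m ≤ H := by
  have := compactSpace_UT g
  have := hm.1
  obtain ⟨C, hC⟩ := exists_exp_bound hn hφ hμ hm h hG ht hc hj
  by_contra hcon
  push Not at hcon
  set δ := ∫ p, t p ∂m - H with hδ
  have hδ0 : 0 < δ := by linarith
  have e : ∀ (T : ℝ) (p : UT g), ∫ s in (0 : ℝ)..T, (t (φ s p) - H) = II φ t T p - H * T := by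
    intro T p
    have hcont : Continuous fun s : ℝ => t (φ s p) := ht.comp (hφ.continuous_left p)
    rw [intervalIntegral.integral_sub (hcont.intervalIntegrable _ _) intervalIntegrable_const,
      intervalIntegral.integral_const, sub_zero, smul_eq_mul, mul_comm T H]
    rfl
  have hexp : ∀ T : ℝ, 0 ≤ T → Real.exp (T * δ) ≤ C := by
    intro T hT
    refine le_trans ?_ (hC T hT)
    simp_rw [e]
    have hcont : Continuous fun p => II φ t T p - H * T :=
      (continuous_II hφ ht T).sub continuous_const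
    have hi : Integrable (fun p => II φ t T p - H * T) m :=
      hcont.integrable_of_hasCompactSupport (HasCompactSupport.of_compactSpace _)
    have hi2 : Integrable (fun p => Real.exp (II φ t T p - H * T)) m :=
      (Real.continuous_exp.comp hcont).integrable_of_hasCompactSupport
        (HasCompactSupport.of_compactSpace _)
    have h1 := convexOn_exp.map_integral_le (μ := m) (f := fun p => II φ t T p - H * T)
      Real.continuous_exp.continuousOn isClosed_univ (Eventually.of_forall fun _ => mem_univ _)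
      hi hi2
    refine le_trans (le_of_eq ?_) h1
    congr 1
    have hII : Integrable (II φ t T) m :=
      (continuous_II hφ ht T).integrable_of_hasCompactSupport (HasCompactSupport.of_compactSpace _)
    rw [integral_sub hII (integrable_const _), integral_const, integral_II hn hφ hμ hm ht]
    simp only [probReal_univ, smul_eq_mul, one_mul]
    rw [hδ]
    ring
  have h2 := hexp (|C| / δ) (by positivity)
  have h3 := Real.add_one_le_exp (|C| / δ * δ)
  rw [div_mul_cancel₀ _ hδ0.ne'] at h2 h3
  have h4 := le_abs_self C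
  linarith

end Area

end Vale.Agent.P207
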