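import Vale.Agent.P207.C1.Hinge
import Vale.Agent.P207.BlkG1

/-!
# P207, block C1: consequences of the hyperbolic hinge comparison for systems of exponential maps
-/

open scoped Manifold ContDiff ENNReal Topology unitInterval
open Bundle MeasureTheory Set Filter

noncomputable section

namespace Vale.Agent.P207.C1

open Vale.Agent.P255
open Path.Homotopic.Quotient

variable {E M : Type} [NormedAddCommGroup E] [NormedSpace ℝ E] [TopologicalSpace M]

/-- hyperbolic hinge comparison with constant `k` -/
def HC (S : ExpSys E M) (k : ℝ) : Prop :=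
  ∀ {x y z : M} (α : Cl x y) (β : Cl x z), 0 < S.len α → 0 < S.len β →
    Real.cosh (k * S.len α) * Real.cosh (k * S.len β) -
      Real.sinh (k * S.len α) * Real.sinh (k * S.len β) * S.ip x (uv S α) (uv S β) ≤
      Real.cosh (k * S.len (α.symm.trans β))

variable {S : ExpSys E M} {k : ℝ}

lemma cosh_le_exp {x : ℝ} (hx : 0 ≤ x) : Real.cosh x ≤ Real.exp x := by
  rw [Real.cosh_eq]
  have : Real.exp (-x) ≤ Real.exp x := Real.exp_le_exp.2 (by linarith)
  linarith

lemma exp_le_two_cosh (x : ℝ) : Real.exp x ≤ 2 * Real.cosh x := by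
  rw [Real.cosh_eq]
  have := Real.exp_pos (-x)
  linarith

lemma nrm_sub_uv_sq {x y z : M} (α : Cl x y) (β : Cl x z) (hα : 0 < S.len α)
    (hβ : 0 < S.len β) :
    S.nrm x (uv S α - uv S β) ^ 2 = 2 - 2 * S.ip x (uv S α) (uv S β) := by
  rw [S.nrm_sq, S.ip_sub, ip_uv S α hα, ip_uv S β hβ]
  ring

/-- the angle is controlled by the Gromov product -/
theorem angle_sq_le (hS : HC S k) (hk : 0 < k) {x y z : M} (α : Cl x y) (β : Cl x z)
    (hα : 0 < S.len α) (hβ : 0 < S.len β) :
    S.nrm x (uv S α - uv S β) ^ 2 * Real.exp (k * (S.len α + S.len β)) ≤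
      16 * Real.exp (k * S.len (α.symm.trans β)) := by
  have h1 := hS α β hα hβ
  have h2 := cosh_le_exp (mul_nonneg hk.le (S.len_nonneg (α.symm.trans β)))
  rw [nrm_sub_uv_sq α β hα hβ]
  set c := S.ip x (uv S α) (uv S β) with hc
  have hab := abs_le.1 (ip_abs_le S x (ip_uv S α hα) (ip_uv S β hβ))
  rw [← hc] at hab
  set A := k * S.len α with hA
  set B := k * S.len β with hB
  have hA0 : 0 < A := mul_pos hk hα
  have hB0 : 0 < B := mul_pos hk hβ
  have hsum : k * (S.len α + S.len β) = A + B := by rw [hA, hB]; ring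
  rw [hsum, Real.exp_add]
  have eA := exp_le_two_cosh A
  have eB := exp_le_two_cosh B
  have hCA : 0 < Real.cosh A := Real.cosh_pos A
  have hCB : 0 < Real.cosh B := Real.cosh_pos B
  have hSA : 0 < Real.sinh A := Real.sinh_pos_iff.2 hA0
  have hSB : 0 < Real.sinh B := Real.sinh_pos_iff.2 hB0
  have hle : Real.sinh A * Real.sinh B ≤ Real.cosh A * Real.cosh B :=
    mul_le_mul (Real.sinh_lt_cosh A).le (Real.sinh_lt_cosh B).le hSB.le hCA.le
  have hE : Real.exp A * Real.exp B ≤ 4 * (Real.cosh A * Real.cosh B) := by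
    have := mul_le_mul eA eB (Real.exp_pos B).le (by positivity)
    linarith
  have hc1 : 0 ≤ 1 - c := by linarith [hab.2]
  have hmain : (1 - c) / 2 * (Real.cosh A * Real.cosh B) ≤
      Real.cosh A * Real.cosh B - Real.sinh A * Real.sinh B * c := by
    rcases le_total 0 c with h | h
    · have h3 : Real.sinh A * Real.sinh B * c ≤ Real.cosh A * Real.cosh B * c :=
        mul_le_mul_of_nonneg_right hle h
      have h4 : 0 ≤ (1 - c) * (Real.cosh A * Real.cosh B) := by positivity
      nlinarith
    · have h3 : Real.sinh A * Real.sinh B * c ≤ 0 :=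
        mul_nonpos_of_nonneg_of_nonpos (by positivity) h
      have h4 : 0 ≤ (1 + c) * (Real.cosh A * Real.cosh B) :=
        mul_nonneg (by linarith [hab.1]) (by positivity)
      nlinarith
  have h5 : (2 - 2 * c) * (Real.exp A * Real.exp B) ≤
      (2 - 2 * c) * (4 * (Real.cosh A * Real.cosh B)) :=
    mul_le_mul_of_nonneg_left hE (by linarith)
  nlinarith

/-- If the angle is at least `θ`, the opposite side is almost as long as the broken line. -/
theorem len_ge_of_angle (hS : HC S k) (hk : 0 < k) {x y z : M} (α : Cl x y) (β : Cl x z)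
    {θ : ℝ} (hθ : 0 < θ) (hθ1 : θ ≤ 1) (h : θ ≤ S.nrm x (uv S α - uv S β)) :
    S.len α + S.len β - Real.log (16 / θ ^ 2) / k ≤ S.len (α.symm.trans β) := by
  have hlog : 0 ≤ Real.log (16 / θ ^ 2) / k := by
    apply div_nonneg _ hk.le
    apply Real.log_nonneg
    rw [le_div_iff₀ (by positivity)]
    nlinarith
  rcases (S.len_nonneg α).eq_or_lt with hα | hα
  · have h1 := S.len_trans α (α.symm.trans β)
    rw [trans_cancel_left] at h1
    linarith
  rcases (S.len_nonneg β).eq_or_lt with hβ | hβ
  · have h1 := S.len_trans (α.symm.trans β) β.symm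
    rw [trans_assoc, trans_symm, trans_refl, S.len_symm, S.len_symm] at h1
    linarith
  have h1 := angle_sq_le hS hk α β hα hβ
  have h2 : θ ^ 2 * Real.exp (k * (S.len α + S.len β)) ≤
      16 * Real.exp (k * S.len (α.symm.trans β)) :=
    (mul_le_mul_of_nonneg_right (pow_le_pow_left₀ hθ.le h 2) (Real.exp_pos _).le).trans h1
  have h3 : Real.exp (k * (S.len α + S.len β)) ≤
      Real.exp (Real.log (16 / θ ^ 2) + k * S.len (α.symm.trans β)) := by
    rw [Real.exp_add, Real.exp_log (by positivity)]
    rw [div_mul_eq_mul_div, le_div_iff₀ (by positivity)]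
    linarith
  have h4 := Real.exp_le_exp.1 h3
  have h5 : S.len α + S.len β ≤ Real.log (16 / θ ^ 2) / k + S.len (α.symm.trans β) := by
    rw [← mul_le_mul_iff_right₀ hk, mul_add k (Real.log _ / k), mul_div_cancel₀ _ hk.ne']
    exact h4
  linarith

/-- If the Gromov product is large, the directions are close. -/
theorem angle_le_of_len (hS : HC S k) (hk : 0 < k) {x y z : M} (α : Cl x y) (β : Cl x z)
    (hα : 0 < S.len α) (hβ : 0 < S.len β) {P : ℝ}
    (h : S.len (α.symm.trans β) ≤ S.len α + S.len β - 2 * P) :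
    S.nrm x (uv S α - uv S β) ≤ 4 * Real.exp (-(k * P)) := by
  have h1 := angle_sq_le hS hk α β hα hβ
  apply G1.len_le_of_sq (by positivity)
  have h2 : Real.exp (k * S.len (α.symm.trans β)) ≤
      Real.exp (k * (S.len α + S.len β)) * Real.exp (-(k * P)) ^ 2 := by
    rw [← Real.exp_nat_mul, ← Real.exp_add]
    apply Real.exp_le_exp.2
    have := mul_le_mul_of_nonneg_left h hk.le
    push_cast
    linarith
  have h3 : S.nrm x (uv S α - uv S β) ^ 2 * Real.exp (k * (S.len α + S.len β)) ≤
      (4 * Real.exp (-(k * P))) ^ 2 * Real.exp (k * (S.len α + S.len β)) := by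
    calc _ ≤ 16 * Real.exp (k * S.len (α.symm.trans β)) := h1
      _ ≤ 16 * (Real.exp (k * (S.len α + S.len β)) * Real.exp (-(k * P)) ^ 2) := by linarith
      _ = _ := by ring
  exact le_of_mul_le_mul_right h3 (Real.exp_pos _)

/-- Stewart's inequality: the distance from a point of a geodesic. -/
theorem stewart (hS : HC S k) (hk : 0 < k) {y z : M} (β : Cl y z) {t : ℝ} (ht0 : 0 < t)
    (ht1 : t < 1) (hβ : 0 < S.len β) {x : M} (ζ : Cl y x) :
    Real.sinh (k * S.len β) * Real.cosh (k * S.len ((G1.part S β t).symm.trans ζ)) ≤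
      Real.sinh (k * ((1 - t) * S.len β)) * Real.cosh (k * S.len ζ) +
      Real.sinh (k * (t * S.len β)) * Real.cosh (k * S.len (β.symm.trans ζ)) := by
  set u := S.vec β with hu
  set m := S.e y (t • u) with hm
  obtain ⟨w, hw, hw2⟩ := S.shift y u t
  rw [← hm] at hw
  have hw3 : ∀ s : ℝ, S.e y ((t + s) • u) = S.e m (s • w) := hw2
  have hwy : S.e m ((-t) • w) = y := by
    rw [← hw3]; simp [S.zero]
  have hwz : S.e m ((1 - t) • w) = z := by
    rw [← hw3]
    simp only [add_sub_cancel, one_smul]
    exact S.e_vec β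
  set μ : Cl y m := G1.part S β t with hμ
  have hvμ : S.vec μ = t • u := G1.vec_part S β t
  have hvμ' : S.vec μ.symm = (-t) • w := by
    rw [hμ, G1.part, ← mk_symm]
    have := S.vec_mk (S.rayTo y m (t • u) rfl).symm
      ⟨fun s : I => (-((s : ℝ) * t)) • w, by fun_prop⟩ (by simp) (by
        intro s
        change S.e m ((-((s : ℝ) * t)) • w) = S.e y (((unitInterval.symm s : I) : ℝ) • (t • u))
        rw [← hw3, smul_smul, unitInterval.coe_symm_eq]
        congr 2
        ring)
    simpa using this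
  set ν : Cl m z := mk (S.rayTo m z ((1 - t) • w) hwz) with hν
  have hvν : S.vec ν = (1 - t) • w := S.vec_rayTo _ _ _ _
  have hμν : μ.trans ν = β := by
    apply S.vec_inj
    rw [hν, S.vec_trans μ (S.rayTo m z ((1 - t) • w) hwz)
      ⟨fun s : I => (t + (s : ℝ) * (1 - t)) • u, by fun_prop⟩ (by simp [hvμ]) (by
        intro s
        simp only [ContinuousMap.coe_mk, ExpSys.rayTo_apply]
        rw [hw3, smul_smul])]
    simp only [ContinuousMap.coe_mk, Icc.coe_one, one_mul, add_sub_cancel, one_smul]
    exact hu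
  have hlμ : S.len μ = t * S.len β := G1.len_part S β ht0.le
  have hnw : S.nrm m w = S.len β := by
    unfold ExpSys.len ExpSys.nrm
    rw [hw]
  have hlν : S.len ν = (1 - t) * S.len β := by
    rw [ExpSys.len, hvν, nrm_smul, abs_of_pos (by linarith), hnw]
  have hlμs : S.len μ.symm = t * S.len β := by rw [S.len_symm, hlμ]
  have pμ : 0 < S.len μ.symm := by rw [hlμs]; positivity
  have pν : 0 < S.len ν := by rw [hlν]; exact mul_pos (by linarith) hβ
  -- opposite directions
  have hop : uv S μ.symm = - uv S ν := by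
    unfold uv
    rw [hlμs, hlν, hvμ', hvν, smul_smul, smul_smul, ← neg_smul]
    congr 1
    have : (1 - t) ≠ 0 := by linarith
    field_simp
  set η : Cl m x := μ.symm.trans ζ with hη
  have e1 : μ.symm.symm.trans η = ζ := by
    rw [hη, ExpSys.symm_symm', ← trans_assoc, trans_symm, refl_trans]
  have e2 : ν.symm.trans η = β.symm.trans ζ := by
    rw [hη, ← hμν, ExpSys.symm_trans', trans_assoc]
  have hadd : k * S.len β = k * (t * S.len β) + k * ((1 - t) * S.len β) := by ring
  have s1 : 0 < Real.sinh (k * (t * S.len β)) := Real.sinh_pos_iff.2 (by positivity)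
  have s2 : 0 < Real.sinh (k * ((1 - t) * S.len β)) :=
    Real.sinh_pos_iff.2 (mul_pos hk (mul_pos (by linarith) hβ))
  rw [hadd, Real.sinh_add]
  rcases (S.len_nonneg η).eq_or_lt with h0 | h0
  · rw [← h0, mul_zero, Real.cosh_zero, mul_one]
    have h1 : t * S.len β ≤ S.len ζ := by
      have := S.len_trans ζ η.symm
      rw [S.len_symm, ← h0, add_zero, hη, ExpSys.symm_trans', ExpSys.symm_symm',
        ← trans_assoc, trans_symm, refl_trans, hlμ] at this
      exact this
    have h2 : (1 - t) * S.len β ≤ S.len (β.symm.trans ζ) := by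
      have := S.len_trans ν.symm η
      rw [e2, ← h0, add_zero, S.len_symm, hlν] at this
      have h3 := S.len_trans (β.symm.trans ζ) η.symm
      rw [← e2, trans_assoc, trans_symm, trans_refl, S.len_symm, S.len_symm, ← h0, add_zero,
        hlν, e2] at h3
      exact h3
    have c1 : Real.cosh (k * (t * S.len β)) ≤ Real.cosh (k * S.len ζ) := by
      apply Real.cosh_le_cosh.2
      rw [abs_of_nonneg (by positivity), abs_of_nonneg (mul_nonneg hk.le (S.len_nonneg _))]
      exact mul_le_mul_of_nonneg_left h1 hk.le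
    have c2 : Real.cosh (k * ((1 - t) * S.len β)) ≤ Real.cosh (k * S.len (β.symm.trans ζ)) := by
      apply Real.cosh_le_cosh.2
      rw [abs_of_nonneg (mul_nonneg hk.le (mul_nonneg (by linarith) hβ.le)),
        abs_of_nonneg (mul_nonneg hk.le (S.len_nonneg _))]
      exact mul_le_mul_of_nonneg_left h2 hk.le
    nlinarith
  · have h1 := hS μ.symm η pμ h0
    have h2 := hS ν η pν h0
    rw [e1, hop, hlμs] at h1
    rw [e2, hlν] at h2
    simp only [map_neg, neg_apply] at h1
    have h3 := mul_le_mul_of_nonneg_left h1 s2.le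
    have h4 := mul_le_mul_of_nonneg_left h2 s1.le
    nlinarith [h3, h4]

end Vale.Agent.P207.C1
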