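import Vale.Agent.P207.C1.Seq
import Vale.Agent.P207.Fin

/-!
# P207, block C1: pure exponential growth of the number of homotopy classes

Change of the base points and the final assembly: if for one base point the windows of the length
function are supermultiplicative (up to windows of bounded size), then the number of classes
`x → y` of length `≤ R` is at most `C exp (h R)` with `h` the topological entropy.
-/

open scoped Manifold ContDiff ENNReal Topology unitInterval
open Bundle MeasureTheory Set Filter

noncomputable section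

namespace Vale.Agent.P207

open Vale.Agent.P255 (RMetric coefIn Gam Riem IsGeo Metric Npc ExpSys toMetric geo expg cc)

variable {n : ℕ} {M : Type} [TopologicalSpace M] [ChartedSpace (EV n) M]
  [IsManifold 𝓘(ℝ, EV n) ∞ M] [CompactSpace M] [T2Space M]

namespace C1

omit [IsManifold 𝓘(ℝ, EV n) ∞ M] [T2Space M] in
/-- uniform bound for the length of some class between two points -/
theorem exists_diam [ConnectedSpace M] (S : ExpSys (EV n) M) (o : M) :
    ∃ D : ℝ, 0 ≤ D ∧ ∀ x : M, ∃ d : Cl o x, S.len d ≤ D := by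
  have : LocallyPathConnectedSpace M := ChartedSpace.locallyPathConnectedSpace (EV n) M
  have : PathConnectedSpace M := pathConnectedSpace_iff_connectedSpace.2 inferInstance
  obtain ⟨F, hF⟩ := C1.exists_centers S one_pos
  refine ⟨1 + ∑ c ∈ F, S.len (Path.Homotopic.Quotient.mk (PathConnectedSpace.somePath o c)), ?_,
    fun x => ?_⟩
  · have := Finset.sum_nonneg fun c (_ : c ∈ F) =>
      S.len_nonneg (Path.Homotopic.Quotient.mk (PathConnectedSpace.somePath o c))
    linarith
  · obtain ⟨c, hc, α, hα⟩ := hF x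
    refine ⟨(Path.Homotopic.Quotient.mk (PathConnectedSpace.somePath o c)).trans α, ?_⟩
    have h1 := S.len_trans (Path.Homotopic.Quotient.mk (PathConnectedSpace.somePath o c)) α
    have h2 := Finset.single_le_sum
      (f := fun c => S.len (Path.Homotopic.Quotient.mk (PathConnectedSpace.somePath o c)))
      (fun c _ => S.len_nonneg _) hc
    linarith

omit [IsManifold 𝓘(ℝ, EV n) ∞ M] in
/-- change of base points -/
theorem growthLE_of_loops [ConnectedSpace M] (S : ExpSys (EV n) M) {o : M} {s C : ℝ}
    (h : ∀ R : ℝ, 0 ≤ R → ({α : Cl o o | S.len α ≤ R}.ncard : ℝ) ≤ C * Real.exp (s * R)) :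
    GrowthLE S s := by
  obtain ⟨D, hD, hd⟩ := exists_diam S o
  choose d hd using hd
  refine ⟨C * Real.exp (s * (2 * D)), fun x y R hR => ⟨C1.finite_len_le S x y R, ?_⟩⟩
  have hinj : Function.Injective (fun α : Cl x y => ((d x).trans α).trans (d y).symm) := by
    intro α β hαβ
    have h1 : ((d x).trans α).trans (d y).symm = ((d x).trans β).trans (d y).symm := hαβ
    exact C1.trans_left_inj _ (C1.trans_right_inj _ h1)
  have hmap : (fun α : Cl x y => ((d x).trans α).trans (d y).symm) '' {α | S.len α ≤ R} ⊆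
      {α : Cl o o | S.len α ≤ R + 2 * D} := by
    rintro _ ⟨α, hα, rfl⟩
    have h1 := S.len_trans ((d x).trans α) (d y).symm
    have h2 := S.len_trans (d x) α
    have h3 : S.len α ≤ R := hα
    rw [S.len_symm] at h1
    have h4 := hd x
    have h5 := hd y
    change S.len (((d x).trans α).trans (d y).symm) ≤ R + 2 * D
    linarith
  have h1 : {α : Cl x y | S.len α ≤ R}.ncard ≤ {α : Cl o o | S.len α ≤ R + 2 * D}.ncard := by
    rw [← Set.ncard_image_of_injective _ hinj]
    exact Set.ncard_le_ncard hmap (C1.finite_len_le S o o _)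
  calc ({α : Cl x y | S.len α ≤ R}.ncard : ℝ) ≤ ({α : Cl o o | S.len α ≤ R + 2 * D}.ncard : ℝ) := by
        exact_mod_cast h1
    _ ≤ C * Real.exp (s * (R + 2 * D)) := h _ (by positivity)
    _ = C * Real.exp (s * (2 * D)) * Real.exp (s * R) := by
        rw [mul_assoc, ← Real.exp_add]
        congr 2
        ring

end C1

/-- the supermultiplicativity of the windows of the length function at the base point `o` -/
def Windows (S : ExpSys (EV n) M) (o : M) : Prop :=
  ∃ (K : ℝ) (c : ℕ), 0 < K ∧ ∀ i j : ℕ, c ≤ i → c ≤ j →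
    ({α : Cl o o | ⌈S.len α⌉₊ = i}.ncard : ℝ) * ({α : Cl o o | ⌈S.len α⌉₊ = j}.ncard : ℝ) ≤
      K * ({α : Cl o o | ⌈S.len α⌉₊ ∈ Finset.Icc (i + j - c) (i + j + c)}.ncard : ℝ)

/-- The number of homotopy classes of length `≤ R` is at most `C exp (h_top R)`. -/
theorem growthLE_top_of_windows (hn : 2 ≤ n) [ConnectedSpace M] {g : RMetric (EV n) M}
    {φ : ℝ → UT g → UT g} (hφ : IsGeoFlow g φ) (h : NegCurvature g)
    (htop : topEntropy (φ 1) ≠ ⊤) {o : M} (hw : Windows (sys g (npc_of_neg h)) o) :
    GrowthLE (sys g (npc_of_neg h)) (topEntropy (φ 1)).toReal := by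
  set S := sys g (npc_of_neg h) with hS
  set H := (topEntropy (φ 1)).toReal with hH
  have hH0 : 0 < H := ENNReal.toReal_pos (topEntropy_pos hn hφ h).ne' htop
  obtain ⟨K, c, hK, hsup⟩ := hw
  obtain ⟨C, hC, hb⟩ := C1.exists_ncard_le_of_windows (ι := Cl o o) (fun α => S.len α) (c := c) hK hH0
    (fun R => C1.finite_len_le S o o R) hsup (by
      intro s hs
      have h1 : topEntropy (φ 1) < ENNReal.ofReal s := by
        rw [← ENNReal.ofReal_toReal htop, ENNReal.ofReal_lt_ofReal_iff (hH0.trans hs)]
        exact hs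
      obtain ⟨C, hC⟩ := growthLE_of_topEntropy hφ (npc_of_neg h) (hH0.trans hs) h1
      exact ⟨C, fun R hR => (hC o o R hR).2⟩)
  exact C1.growthLE_of_loops S hb

end Vale.Agent.P207
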