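import Vale.Agent.P207.BlkC1
import Vale.Agent.P207.BlkC2
import Vale.Agent.P207.BlkDB
import Vale.Agent.P207.BlkL

/-!
# P207, block C1/H2: closing a recurrent orbit

For every unit vector `v` at `o` there are loops at `o` whose geodesic starts almost in the
direction `v` and arrives almost in the direction `v` (Poincaré recurrence for the Liouville
measure, which has full support).
-/

open scoped Manifold ContDiff ENNReal Topology unitInterval
open Bundle MeasureTheory Set Filter

noncomputable section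

namespace Vale.Agent.P207

open Vale.Agent.P255 (RMetric coefIn Gam Riem IsGeo Metric Npc ExpSys toMetric geo expg cc)

namespace C1

section Gap2

variable {E M : Type} [NormedAddCommGroup E] [NormedSpace ℝ E] [TopologicalSpace M]
  (S : ExpSys E M)

/-- the distance function between two geodesics whose initial points are joined by `τ` -/
def gap2 {x y : M} (τ : Cl x y) (v w : E) (t : ℝ) : ℝ :=
  S.len ((ray S x v t).symm.trans (τ.trans (ray S y w t)))

theorem ray_zero_len (x : M) (v : E) : S.len (ray S x v 0) = 0 := by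
  rw [len_ray]; simp

theorem gap2_zero_le {x y : M} (τ : Cl x y) (v w : E) : gap2 S τ v w 0 ≤ S.len τ := by
  refine (S.len_trans _ _).trans ?_
  have h1 := S.len_trans τ (ray S y w 0)
  rw [S.len_symm, ray_zero_len]
  rw [ray_zero_len] at h1
  linarith

theorem gap2_nonneg {x y : M} (τ : Cl x y) (v w : E) (t : ℝ) : 0 ≤ gap2 S τ v w t :=
  S.len_nonneg _

theorem gap2_le {x y : M} (τ : Cl x y) (v w : E) (t t' : ℝ) :
    gap2 S τ v w t' ≤ gap2 S τ v w t + |t - t'| * (S.nrm x v + S.nrm y w) := by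
  have e : (ray S x v t').symm.trans (τ.trans (ray S y w t')) =
      ((ray S x v t').symm.trans (ray S x v t)).trans
        (((ray S x v t).symm.trans (τ.trans (ray S y w t))).trans
          ((ray S y w t).symm.trans (ray S y w t'))) := by
    rw [Path.Homotopic.Quotient.trans_assoc, Path.Homotopic.Quotient.trans_assoc,
      Path.Homotopic.Quotient.trans_assoc τ, trans_symm_cancel, trans_symm_cancel]
  unfold gap2
  rw [e]
  refine (S.len_trans _ _).trans ?_
  have h1 := S.len_trans ((ray S x v t).symm.trans (τ.trans (ray S y w t)))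
    ((ray S y w t).symm.trans (ray S y w t'))
  have h2 := len_ray_symm_trans S (ray S x v t) (vec_ray S x v t) t'
  have h3 := len_ray_symm_trans S (ray S y w t') (vec_ray S y w t') t
  rw [abs_sub_comm] at h3
  rw [h2]
  rw [h3] at h1
  linarith

theorem continuous_gap2 {x y : M} (τ : Cl x y) (v w : E) : Continuous (gap2 S τ v w) := by
  rw [Metric.continuous_iff]
  intro t ε hε
  set K := S.nrm x v + S.nrm y w with hK
  have hK0 : 0 ≤ K := add_nonneg (S.nrm_nonneg _ _) (S.nrm_nonneg _ _)
  refine ⟨ε / (K + 1), by positivity, fun t' ht' => ?_⟩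
  have h1 := gap2_le S τ v w t t'
  have h2 := gap2_le S τ v w t' t
  rw [Real.dist_eq] at ht'
  rw [abs_sub_comm t t'] at h1
  have h3 : |t' - t| * K < ε := by
    calc |t' - t| * K ≤ |t' - t| * (K + 1) :=
          mul_le_mul_of_nonneg_left (by linarith) (abs_nonneg _)
      _ < ε / (K + 1) * (K + 1) := mul_lt_mul_of_pos_right ht' (by positivity)
      _ = ε := by field_simp
  rw [Real.dist_eq, abs_lt]
  constructor <;> linarith

/-- If two geodesics whose initial points are joined by a short class stay close up to time `T` in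
the quotient, then they stay close in the universal cover. -/
theorem gap2_lt {sy η : ℝ} (hη : 0 < η) (hsη : 3 * η ≤ sy)
    (hsy : ∀ (x : M) (α : Cl x x), S.len α < sy → α = Path.Homotopic.Quotient.refl x)
    {x y : M} {τ : Cl x y} (hτ : S.len τ < η) {v w : E} {T : ℝ}
    (h : ∀ t ∈ Icc (0 : ℝ) T, S.e y (t • w) ∈ nb S (S.e x (t • v)) η) :
    ∀ t ∈ Icc (0 : ℝ) T, gap2 S τ v w t < η := by
  have hdich : ∀ t ∈ Icc (0 : ℝ) T, gap2 S τ v w t < η ∨ 2 * η ≤ gap2 S τ v w t := by
    intro t ht
    obtain ⟨δ, hδ⟩ := h t ht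
    by_cases heq : (ray S x v t).symm.trans (τ.trans (ray S y w t)) = δ
    · left
      unfold gap2
      rw [heq]; exact hδ
    · right
      by_contra hlt
      push Not at hlt
      apply heq
      set ζ := (ray S x v t).symm.trans (τ.trans (ray S y w t)) with hζ
      have h1 : S.len (δ.symm.trans ζ) < sy := by
        have h2 := S.len_trans δ.symm ζ
        rw [S.len_symm] at h2
        have h3 : S.len ζ = gap2 S τ v w t := rfl
        linarith
      have h4 := hsy _ _ h1
      calc ζ = δ.trans (δ.symm.trans ζ) := (trans_symm_cancel δ ζ).symm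
        _ = δ := by rw [h4, Path.Homotopic.Quotient.trans_refl]
  intro t ht
  rcases hdich t ht with h1 | h1
  · exact h1
  · exfalso
    have hmem : (3 / 2 * η) ∈ Icc (gap2 S τ v w 0) (gap2 S τ v w t) := by
      have := gap2_zero_le S τ v w
      constructor <;> linarith
    obtain ⟨t', ht', heq⟩ := intermediate_value_Icc ht.1
      (continuous_gap2 S τ v w).continuousOn hmem
    rcases hdich t' ⟨ht'.1, ht'.2.trans ht.2⟩ with h2 | h2
    · rw [heq] at h2; linarith
    · rw [heq] at h2; linarith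

theorem len_comb {o o₁ x x₁ x' o' : M} (r : Cl o o₁) (τ : Cl o x) (r' : Cl x x₁) (γ : Cl x x')
    (d : Cl x' o') : S.len (r.symm.trans ((τ.trans γ).trans d)) ≤
      S.len (r.symm.trans (τ.trans r')) + S.len (r'.symm.trans γ) + S.len d := by
  have e : r.symm.trans ((τ.trans γ).trans d) =
      (r.symm.trans (τ.trans r')).trans ((r'.symm.trans γ).trans d) := by
    have e1 : r'.trans ((r'.symm.trans γ).trans d) = γ.trans d := by
      rw [← Path.Homotopic.Quotient.trans_assoc, trans_symm_cancel]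
    rw [Path.Homotopic.Quotient.trans_assoc r.symm, Path.Homotopic.Quotient.trans_assoc τ r', e1,
      Path.Homotopic.Quotient.trans_assoc τ γ]
  rw [e]
  have h1 := S.len_trans (r.symm.trans (τ.trans r')) ((r'.symm.trans γ).trans d)
  have h2 := S.len_trans (r'.symm.trans γ) d
  linarith

theorem len_comb' {o x x' o' : M} (τ : Cl o x) (γ : Cl x x') (d : Cl o' x') :
    S.len γ ≤ S.len τ + S.len ((τ.trans γ).trans d.symm) + S.len d := by
  have e : γ = τ.symm.trans (((τ.trans γ).trans d.symm).trans d) := by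
    rw [Path.Homotopic.Quotient.trans_assoc (τ.trans γ), Path.Homotopic.Quotient.symm_trans,
      Path.Homotopic.Quotient.trans_refl, symm_trans_cancel]
  have h1 := S.len_trans τ.symm (((τ.trans γ).trans d.symm).trans d)
  have h2 := S.len_trans ((τ.trans γ).trans d.symm) d
  rw [← e, S.len_symm] at h1
  linarith

end Gap2

variable {n : ℕ} {M : Type} [TopologicalSpace M] [ChartedSpace (EV n) M]
  [IsManifold 𝓘(ℝ, EV n) ∞ M] [CompactSpace M] [T2Space M]

variable {g : RMetric (EV n) M} {φ : ℝ → UT g → UT g}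

/-- the vector of `q`, as an element of `ℝⁿ` -/
def uv {n : ℕ} {M : Type} [TopologicalSpace M] [ChartedSpace (EV n) M]
    [IsManifold 𝓘(ℝ, EV n) ∞ M] {g : RMetric (EV n) M} (q : UT g) : EV n := q.vec

theorem pt_eq_uv (hφ : IsGeoFlow g φ) (h : Npc (mt g)) (t : ℝ) (q : UT g) :
    (φ t q).pt = (sys g h).e q.pt (t • uv q) := hφ.pt_eq_e h t q

theorem nrm_uv (h : Npc (mt g)) (q : UT g) : (sys g h).nrm q.pt (uv q) = 1 := nrm_vec_eq_one h q

/-- the class of the orbit of `q` up to time `T` -/
def orb (hφ : IsGeoFlow g φ) (h : Npc (mt g)) (q : UT g) (T : ℝ) : Cl q.pt (φ T q).pt :=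
  Path.Homotopic.Quotient.mk ((sys g h).rayTo q.pt (φ T q).pt (T • uv q)
    (pt_eq_uv hφ h T q).symm)

theorem vec_orb (hφ : IsGeoFlow g φ) (h : Npc (mt g)) (q : UT g) (T : ℝ) :
    (sys g h).vec (orb hφ h q T) = T • uv q := ExpSys.vec_rayTo _ _ _ _ _

/-- the reversed orbit -/
theorem vec_orb_symm (hφ : IsGeoFlow g φ) (h : Npc (mt g)) (q : UT g) (T : ℝ) :
    (sys g h).vec (orb hφ h q T).symm = T • (-uv (φ T q)) := by
  unfold orb
  rw [← Path.Homotopic.Quotient.mk_symm]
  have := (sys g h).vec_mk ((sys g h).rayTo q.pt (φ T q).pt (T • uv q)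
    (pt_eq_uv hφ h T q).symm).symm
    ⟨fun s : I => ((s : ℝ) * T) • (-uv (φ T q)), by fun_prop⟩ (by simp) (by
      intro s
      change (sys g h).e (φ T q).pt (((s : ℝ) * T) • (-uv (φ T q))) =
        (sys g h).e q.pt (((unitInterval.symm s : I) : ℝ) • (T • uv q))
      have e1 : ((s : ℝ) * T) • (-uv (φ T q)) = (-((s : ℝ) * T)) • uv (φ T q) := by
        rw [smul_neg, neg_smul]
      rw [e1, ← pt_eq_uv hφ h, ← hφ.add, smul_smul, ← pt_eq_uv hφ h, unitInterval.coe_symm_eq]
      congr 2
      ring)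
  rw [this]
  simp

/-- neighbourhoods of a unit vector in which the orbits stay close for `|t| ≤ l` -/
theorem exists_nhd (hφ : IsGeoFlow g φ) (S : ExpSys (EV n) M) {l η : ℝ} (hη : 0 < η) (p : UT g) :
    ∃ U : Set (UT g), IsOpen U ∧ p ∈ U ∧ ∀ q ∈ U, ∀ t ∈ Icc (0 : ℝ) l,
      (φ t q).pt ∈ nb S (φ t p).pt η ∧ (φ (-t) q).pt ∈ nb S (φ (-t) p).pt η := by
  rcases le_or_gt l 0 with hl | hl
  swap
  · have := compactSpace_UT g
    have := t2Space_UT g
    have := metrizableSpace_UT g
    let : MetricSpace (UT g) := TopologicalSpace.metrizableSpaceMetric (UT g)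
    have hc : Continuous fun q : ℝ × UT g => (φ q.1 q.2).pt :=
      (continuous_pt g).comp hφ.continuous
    obtain ⟨δ₁, hδ₁, h1⟩ := DB.exists_close S (X := UT g) (F := fun t q => (φ (l * t) q).pt)
      (hc.comp (by fun_prop : Continuous fun q : ℝ × UT g => (l * q.1, q.2))) hη
    obtain ⟨δ₂, hδ₂, h2⟩ := DB.exists_close S (X := UT g) (F := fun t q => (φ (-(l * t)) q).pt)
      (hc.comp (by fun_prop : Continuous fun q : ℝ × UT g => (-(l * q.1), q.2))) hη
    refine ⟨Metric.ball p (min δ₁ δ₂), Metric.isOpen_ball, Metric.mem_ball_self (lt_min hδ₁ hδ₂),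
      fun q hq t ht => ?_⟩
    have hq' : dist p q < min δ₁ δ₂ := by rw [dist_comm]; exact hq
    have ht' : t / l ∈ Icc (0 : ℝ) 1 := ⟨div_nonneg ht.1 hl.le, (div_le_one hl).2 ht.2⟩
    have e : l * (t / l) = t := mul_div_cancel₀ t hl.ne'
    have h3 := h1 p q (hq'.trans_le (min_le_left _ _)) _ ht'
    have h4 := h2 p q (hq'.trans_le (min_le_right _ _)) _ ht'
    rw [e] at h3 h4
    exact ⟨h3, h4⟩
  · obtain ⟨U, hU, hx, h1⟩ := exists_near S p.pt hη
    refine ⟨(fun q : UT g => q.pt) ⁻¹' U, hU.preimage (continuous_pt g), hx, fun q hq t ht => ?_⟩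
    have e : t = 0 := le_antisymm (ht.2.trans hl) ht.1
    have h2 : q.pt ∈ nb S p.pt η := h1 _ hx _ hq
    rw [e, neg_zero, hφ.zero, hφ.zero]
    exact ⟨h2, h2⟩

/-- H2. Loops whose geodesic starts and arrives almost in the direction `v`. -/
theorem exists_loop (hn : 1 ≤ n) (h : Npc (mt g)) (hφ : IsGeoFlow g φ) [MeasurableSpace M]
    [BorelSpace M] {μ : Measure M} {m : Measure (UT g)} (hμ : IsRiemVol g μ)
    (hm : IsLiouville g μ m) {o : M} {v : EV n} (hv : (mt g).ip o v v = 1) {l ε : ℝ}
    (hl : 0 < l) (hε : 0 < ε) :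
    ∃ a : Cl o o, l ≤ (sys g h).len a ∧
      (sys g h).len ((ray (sys g h) o v l).symm.trans a) ≤ (sys g h).len a - l + ε ∧
      (sys g h).len ((ray (sys g h) o (-v) l).symm.trans a.symm) ≤
        (sys g h).len a - l + ε := by
  set S := sys g h with hS
  obtain ⟨sy, hsy0, hsy⟩ := C1.exists_systole S
  set η := min (sy / 3) (min (ε / 4) (1 / 2)) with hη
  have hη0 : 0 < η := by positivity
  have hη1 : 3 * η ≤ sy := by
    have : η ≤ sy / 3 := min_le_left _ _
    linarith
  have hη2 : η ≤ ε / 4 := (min_le_right _ _).trans (min_le_left _ _)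
  have hη3 : η ≤ 1 / 2 := (min_le_right _ _).trans (min_le_right _ _)
  set p : UT g := mkUT g o v hv with hp
  have hpv : (p.vec : EV n) = v := rfl
  have hpo : p.pt = o := rfl
  obtain ⟨U, hU, hpU, hclose⟩ := exists_nhd hφ S (l := l) hη0 p
  -- a recurrent orbit
  have hprob := hm.1
  have hUm : m U ≠ 0 := by
    intro h0
    have := compactSpace_UT g
    have := t2Space_UT g
    have := metrizableSpace_UT g
    let : MetricSpace (UT g) := TopologicalSpace.metrizableSpaceMetric (UT g)
    obtain ⟨δ, hδ, hball⟩ := Metric.isOpen_iff.1 hU p hpU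
    have hc : Continuous fun q : UT g => max 0 (δ - dist q p) := by fun_prop
    have h1 := hm.eq_zero hn hμ hc (fun q => le_max_left _ _) (by
      apply integral_eq_zero_of_ae
      have h2 : ∀ᵐ q ∂m, q ∉ U := by
        rw [ae_iff]
        simpa using h0
      filter_upwards [h2] with q hq
      have h3 : ¬ dist q p < δ := fun h4 => hq (hball h4)
      simp only [Pi.zero_apply]
      exact max_eq_left (by linarith)) p
    rw [dist_self, sub_zero, max_eq_right hδ.le] at h1
    exact hδ.ne' h1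
  set T₀ := l + 1 with hT₀
  obtain ⟨q, hq, k, hk, hqk⟩ := (IsLiouville.measurePreserving hn hφ hμ hm T₀).exists_mem_iterate_mem
    (s := U) hU.measurableSet.nullMeasurableSet hUm
  rw [hφ.iterate] at hqk
  set T := (k : ℝ) * T₀ with hT
  have hTl : l + 1 ≤ T := by
    have h1 : (1 : ℝ) ≤ k := by exact_mod_cast Nat.one_le_iff_ne_zero.2 hk
    have h2 : 0 < l + 1 := by linarith
    calc l + 1 = 1 * (l + 1) := (one_mul _).symm
      _ ≤ k * (l + 1) := mul_le_mul_of_nonneg_right h1 h2.le
  -- the connecting classes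
  obtain ⟨d₁, hd₁⟩ : ∃ d : Cl o q.pt, S.len d < η := by
    have h1 := (hclose q hq 0 ⟨le_rfl, hl.le⟩).1
    rw [hφ.zero, hφ.zero] at h1
    exact h1
  obtain ⟨d₂, hd₂⟩ : ∃ d : Cl o (φ T q).pt, S.len d < η := by
    have h1 := (hclose (φ T q) hqk 0 ⟨le_rfl, hl.le⟩).1
    rw [hφ.zero, hφ.zero] at h1
    exact h1
  have hg₁ : gap2 S d₁ v (uv q) l < η := by
    refine gap2_lt S hη0 hη1 hsy hd₁ (T := l) (fun t ht => ?_) l ⟨hl.le, le_rfl⟩
    have h1 := (hclose q hq t ht).1
    rw [pt_eq_uv hφ h, pt_eq_uv hφ h] at h1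
    exact h1
  have hg₂ : gap2 S d₂ (-v) (-uv (φ T q)) l < η := by
    refine gap2_lt S hη0 hη1 hsy hd₂ (T := l) (fun t ht => ?_) l ⟨hl.le, le_rfl⟩
    have h1 := (hclose (φ T q) hqk t ht).2
    rw [pt_eq_uv hφ h, pt_eq_uv hφ h, neg_smul, neg_smul, ← smul_neg, ← smul_neg] at h1
    exact h1
  have hT0 : 0 ≤ T := by linarith
  have hvγ : S.vec (orb hφ h q T) = T • uv q := vec_orb hφ h q T
  have hvγ' : S.vec (orb hφ h q T).symm = T • (-uv (φ T q)) := vec_orb_symm hφ h q T
  have hn1 : S.nrm q.pt (uv q) = 1 := nrm_uv h q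
  have hn2 : S.nrm (φ T q).pt (-uv (φ T q)) = 1 := by
    rw [S.nrm_neg]; exact nrm_uv h (φ T q)
  set γ := orb hφ h q T with hγ
  have hlγ : S.len γ = T := by
    rw [ExpSys.len, hvγ, P207.nrm_smul, hn1, abs_of_nonneg hT0, mul_one]
  have r1 := len_ray_symm_trans S γ hvγ l
  have r2 := len_ray_symm_trans S γ.symm hvγ' l
  rw [hn1, mul_one, abs_of_nonneg (by linarith)] at r1
  rw [hn2, mul_one, abs_of_nonneg (by linarith)] at r2
  refine ⟨(d₁.trans γ).trans d₂.symm, ?_, ?_, ?_⟩
  · have h1 := len_comb' S d₁ γ d₂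
    linarith
  · have h1 := len_comb S (ray S o v l) d₁ (ray S q.pt (uv q) l) γ d₂.symm
    have h2 := len_comb' S d₁ γ d₂
    have h3 : S.len ((ray S o v l).symm.trans (d₁.trans (ray S q.pt (uv q) l))) < η := hg₁
    rw [S.len_symm] at h1
    linarith
  · have h1 := len_comb S (ray S o (-v) l) d₂ (ray S (φ T q).pt (-uv (φ T q)) l) γ.symm d₁.symm
    have h2 := len_comb' S d₁ γ d₂
    have h3 : S.len ((ray S o (-v) l).symm.trans
      (d₂.trans (ray S (φ T q).pt (-uv (φ T q)) l))) < η := hg₂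
    have e : ((d₁.trans γ).trans d₂.symm).symm = (d₂.trans γ.symm).trans d₁.symm := by
      rw [ExpSys.symm_trans', ExpSys.symm_trans', ExpSys.symm_symm',
        Path.Homotopic.Quotient.trans_assoc]
    rw [S.len_symm] at h1
    rw [e]
    linarith

end C1

end Vale.Agent.P207
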