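import Vale.Agent.P207.C1.Super
import Vale.Agent.P207.C1.Loop
import Vale.Agent.P207.C1.Growth

/-!
# P207, block C1: the number of classes of length `≤ R` is at most `C exp (h R)`
-/

open scoped Manifold ContDiff ENNReal Topology unitInterval
open Bundle MeasureTheory Set Filter

noncomputable section

namespace Vale.Agent.P207

open Vale.Agent.P255 (RMetric coefIn Gam Riem IsGeo Metric Npc ExpSys toMetric geo expg cc)

variable {n : ℕ} {M : Type} [TopologicalSpace M] [ChartedSpace (EV n) M]
  [IsManifold 𝓘(ℝ, EV n) ∞ M] [CompactSpace M] [T2Space M]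

/-- The windows of the length function are supermultiplicative. -/
theorem windows_sys (hn : 2 ≤ n) [MeasurableSpace M] [BorelSpace M] {g : RMetric (EV n) M}
    {φ : ℝ → UT g → UT g} (hφ : IsGeoFlow g φ) (h : NegCurvature g) {μ : Measure M}
    {m : Measure (UT g)} (hμ : IsRiemVol g μ) (hm : IsLiouville g μ m) (o : M) :
    Windows (sys g (npc_of_neg h)) o := by
  obtain ⟨k, hk, hg⟩ := exists_curvLE_of_neg h
  have hS : C1.HC (sys g (npc_of_neg h)) k := by
    intro x y z α β hα hβ
    exact hinge_cl hk hg α β hα hβ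
  obtain ⟨e₁, e₂, h11, h22, h12⟩ := exists_orthonormal hn (sys g (npc_of_neg h)) o
  set S := sys g (npc_of_neg h) with hSdef
  have h21 : S.ip o e₂ e₁ = 0 := by rw [S.ip_symm]; exact h12
  have hnrm : ∀ (w : EV n) (r : ℝ), 0 ≤ r → S.ip o w w = r ^ 2 → S.nrm o w = r := by
    intro w r hr hw
    have h1 := S.nrm_sq o w
    rw [hw] at h1
    nlinarith [S.nrm_nonneg o w]
  have hge : ∀ w : EV n, 1 ≤ S.ip o w w → 1 ≤ S.nrm o w := by
    intro w hw
    have h1 := S.nrm_sq o w
    nlinarith [S.nrm_nonneg o w]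
  set v : Fin 3 → EV n := ![e₁, e₂, -e₁] with hv
  have hv1 : ∀ i, S.ip o (v i) (v i) = 1 := by
    intro i
    fin_cases i <;> simp [hv, h11, h22]
  obtain ⟨a, C, hC, ha⟩ := C1.exists_connectors hS hk v (fun i => hnrm _ 1 zero_le_one
    (by rw [hv1]; norm_num)) (by
      intro i j hij
      apply hge
      fin_cases i <;> fin_cases j <;> simp_all <;> norm_num) (by
      intro i l hl
      exact C1.exists_loop (by omega) (npc_of_neg h) hφ hμ hm (hv1 i) hl one_pos)
  exact C1.windows_of hS hk hC a ha

/-- **Block C1.** The number of homotopy classes of length `≤ R` is at most `C exp (h R)`, with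
`h` the topological entropy of the geodesic flow. -/
theorem growthLE_top (hn : 2 ≤ n) [ConnectedSpace M] [MeasurableSpace M] [BorelSpace M]
    {g : RMetric (EV n) M} {φ : ℝ → UT g → UT g} (hφ : IsGeoFlow g φ) (h : NegCurvature g)
    (htop : topEntropy (φ 1) ≠ ⊤) {μ : Measure M} {m : Measure (UT g)} (hμ : IsRiemVol g μ)
    (hm : IsLiouville g μ m) :
    GrowthLE (sys g (npc_of_neg h)) (topEntropy (φ 1)).toReal := by
  obtain ⟨o⟩ := (inferInstance : Nonempty M)
  exact growthLE_top_of_windows hn hφ h htop (windows_sys hn hφ h hμ hm o)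

end Vale.Agent.P207
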