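import Vale.Agent.P207.BlkP2
import Vale.Agent.P207.BlkC1

/-!
# P207, block C1: the hyperbolic hinge comparison in curvature `≤ -k²`
-/

open scoped Manifold ContDiff ENNReal Topology unitInterval
open Bundle MeasureTheory Set Filter

noncomputable section

set_option maxSynthPendingDepth 3

namespace Vale.Agent.P207

open Vale.Agent.P255

section General

variable {E : Type} [NormedAddCommGroup E] [NormedSpace ℝ E] [FiniteDimensional ℝ E]
variable {M : Type} [TopologicalSpace M] [ChartedSpace E M] [IsManifold 𝓘(ℝ, E) ∞ M]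

/-- The velocity of the lift of a geodesic, away from the origin. -/
theorem speed_lift {g : Metric E M} {e : M → E → M} (he : IsExp g e) {k : ℝ} (hk : 0 < k)
    (hg : CurvLE g (k ^ 2)) {m q : M} (hI : InjAt E e m) (w : E) (c : ℝ → E)
    (hc : ContinuousOn c (Icc 0 1)) (h : ∀ t ∈ Icc (0 : ℝ) 1, e m (c t) = e q (t • w))
    {t : ℝ} (ht : t ∈ Ioo (0 : ℝ) 1) {r : ℝ} (hr0 : 0 < r) (hr2 : r ^ 2 = g.ip m (c t) (c t)) :
    ∃ c' : E, HasDerivAt c c' t ∧
      g.ip m (c' - (g.ip m (c t) c' / r ^ 2) • c t) (c' - (g.ip m (c t) c' / r ^ 2) • c t) *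
        (Real.sinh (k * r) / (k * r)) ^ 2 + (g.ip m (c t) c' / r) ^ 2 ≤ g.ip q w w := by
  have ht' : t ∈ Icc (0 : ℝ) 1 := Ioo_subset_Icc_self ht
  have hnb : Icc (0 : ℝ) 1 ∈ 𝓝 t := Icc_mem_nhds ht.1 ht.2
  have hct : ContinuousAt c t := hc.continuousAt hnb
  set a := e q (t • w) with ha
  have hsrcq : e q (t • w) ∈ (chartAt E a).source := by rw [← ha]; exact mem_chart_source E a
  have hsrcm : e m (c t) ∈ (chartAt E a).source := by rw [h t ht']; exact hsrcq
  obtain ⟨c', hc', hc''⟩ := hasDerivAt_lift (he.smooth m (c t) a hsrcm)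
    (fun z hz => hI (c t) z a hsrcm hz) hct
    (x := fun s => chartAt E a (e q (s • w)))
    (by filter_upwards [hnb] with s hs; rw [h s hs]) (he.hasDerivAt_ray' q w t a hsrcq)
  refine ⟨c', hc', ?_⟩
  set v := c t with hv
  have hvv : 0 < g.ip m v v := by rw [← hr2]; positivity
  set z := c' - (g.ip m v c' / r ^ 2) • v with hz
  have hvz : g.ip m v z = 0 := by
    rw [hz]
    simp only [map_sub, map_smul, smul_eq_mul]
    rw [← hr2]
    field_simp
    ring
  have hG := he.gauss m v v a hsrcm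
  have hGz := he.gauss m v z a hsrcm
  rw [hvz] at hGz
  have hR := rauch_neg he hk hg m v z hvz hvv a hsrcm
  have hsr : Real.sqrt (g.ip m v v) = r := by rw [← hr2, Real.sqrt_sq hr0.le]
  rw [hsr] at hR
  have hsp := speed_of_gaussAt (he.gaussAt q) w t a hsrcq ht.1.ne'
  have hc'z : c' = z + (g.ip m v c' / r ^ 2) • v := by rw [hz]; abel
  set D := fderiv ℝ (fun x => chartAt E a (e m x)) v with hD
  set G := g.coef a (chartAt E a (e m v)) with hGd
  have hGsymm : G (D z) (D v) = G (D v) (D z) :=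
    (g.isMetricOn' a).symm _ ((chartAt E a).map_source hsrcm) _ _
  have h1 : G (D c') (D c') = g.ip q w w := by
    rw [hc'', hGd, h t ht', ← ha]
    rw [← ha] at hsp
    exact hsp
  have hle : G (D z) (D z) + (g.ip m v c' / r) ^ 2 = g.ip q w w := by
    rw [← h1, hc'z]
    simp only [map_add, map_smul, add_apply, smul_apply, smul_eq_mul]
    rw [hGsymm, hGz, hG, hvz, ← hr2]
    field_simp
    ring
  have hsk : sk (k * r) 1 = Real.sinh (k * r) / (k * r) := by unfold sk; rw [mul_one]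
  rw [hsk] at hR
  linarith

theorem psd_aux {X Y y b ζ : ℝ} (hζ : 0 ≤ ζ) (hb : 0 ≤ b) (hy : y ^ 2 ≤ b * ζ) :
    0 ≤ X ^ 2 * ζ + Y ^ 2 * b + 2 * X * Y * y := by
  rcases hζ.eq_or_lt with h | h
  · have : y = 0 := by
      rw [← h, mul_zero] at hy
      exact pow_eq_zero_iff (two_ne_zero) |>.1 (le_antisymm hy (sq_nonneg _))
    rw [this, ← h]
    have := mul_nonneg (sq_nonneg Y) hb
    linarith
  · have h1 : 0 ≤ ζ * (X ^ 2 * ζ + Y ^ 2 * b + 2 * X * Y * y) := by
      have h2 : ζ * (X ^ 2 * ζ + Y ^ 2 * b + 2 * X * Y * y) =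
          (X * ζ + Y * y) ^ 2 + Y ^ 2 * (b * ζ - y ^ 2) := by ring
      rw [h2]
      exact add_nonneg (sq_nonneg _) (mul_nonneg (sq_nonneg _) (sub_nonneg.2 hy))
    exact nonneg_of_mul_nonneg_right h1 h

theorem hinge_alg {a S C s x y ζ ρ sg W : ℝ} (ha : a ^ 2 = 1 + S ^ 2) (hC : C ^ 2 = 1 + s ^ 2)
    (hζ : 0 ≤ ζ) (hx : x ^ 2 ≤ 1) (hy : y ^ 2 ≤ (1 - x ^ 2) * ζ)
    (hW : ζ * sg ^ 2 + ρ ^ 2 ≤ W) :
    (ρ * (a * s - S * C * x) - S * sg * y) ^ 2 ≤ ((a * C - S * s * x) ^ 2 - 1) * W := by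
  have hQ : (a * C - S * s * x) ^ 2 - 1 = (a * s - S * C * x) ^ 2 + S ^ 2 * (1 - x ^ 2) := by
    have : (a * C - S * s * x) ^ 2 - 1 - ((a * s - S * C * x) ^ 2 + S ^ 2 * (1 - x ^ 2)) =
        (a ^ 2 - S ^ 2 * x ^ 2) * (C ^ 2 - s ^ 2) - 1 - S ^ 2 * (1 - x ^ 2) := by ring
    rw [ha, hC] at this
    nlinarith [this]
  set P := a * s - S * C * x with hP
  have hb : 0 ≤ 1 - x ^ 2 := by linarith
  have hQ0 : 0 ≤ P ^ 2 + S ^ 2 * (1 - x ^ 2) :=
    add_nonneg (sq_nonneg _) (mul_nonneg (sq_nonneg _) hb)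
  rw [hQ]
  have h1 : (P ^ 2 + S ^ 2 * (1 - x ^ 2)) * (ζ * sg ^ 2 + ρ ^ 2) ≤
      (P ^ 2 + S ^ 2 * (1 - x ^ 2)) * W := mul_le_mul_of_nonneg_left hW hQ0
  have h2 := psd_aux (X := P * sg) (Y := S * ρ) hζ hb hy
  have h3 : 0 ≤ S ^ 2 * sg ^ 2 * ((1 - x ^ 2) * ζ - y ^ 2) :=
    mul_nonneg (by positivity) (sub_nonneg.2 hy)
  nlinarith [h1, h2, h3]

/-- the hyperbolic hinge comparison along a lift which avoids the origin -/
theorem hinge_of {g : Metric E M} {e : M → E → M} (he : IsExp g e) {k : ℝ} (hk : 0 < k)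
    (hg : CurvLE g (k ^ 2)) {m q : M} (hI : InjAt E e m) (w : E) (c : ℝ → E)
    (hc : ContinuousOn c (Icc 0 1)) (h : ∀ t ∈ Icc (0 : ℝ) 1, e m (c t) = e q (t • w))
    (hpos : ∀ t ∈ Icc (0 : ℝ) 1, 0 < g.ip m (c t) (c t)) {u : E} {l : ℝ} (hl : 0 < l)
    (hu : g.ip m u u = 1) (hc0 : c 0 = l • u) :
    Real.cosh (k * l) * Real.cosh (k * Real.sqrt (g.ip m (c 1) (c 1))) -
      Real.sinh (k * l) * Real.sinh (k * Real.sqrt (g.ip m (c 1) (c 1))) *
        g.ip m u ((Real.sqrt (g.ip m (c 1) (c 1)))⁻¹ • c 1) ≤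
      Real.cosh (k * Real.sqrt (g.ip q w w)) := by
  have hipn : ∀ v, 0 ≤ g.ip m v v := nonneg_of_pos (g.ip_pos m)
  set L := Real.sqrt (g.ip q w w) with hL
  have hL0 : 0 ≤ L := Real.sqrt_nonneg _
  have hL2 : L ^ 2 = g.ip q w w := Real.sq_sqrt (nonneg_of_pos (g.ip_pos q) w)
  set r : ℝ → ℝ := fun t => Real.sqrt (g.ip m (c t) (c t)) with hr
  have hr0 : ∀ t ∈ Icc (0 : ℝ) 1, 0 < r t := fun t ht => Real.sqrt_pos.2 (hpos t ht)
  have hr2 : ∀ t, r t ^ 2 = g.ip m (c t) (c t) := fun t => Real.sq_sqrt (hipn _)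
  set x : ℝ → ℝ := fun t => (r t)⁻¹ * g.ip m u (c t) with hx
  set Φ : ℝ → ℝ := fun t => Real.cosh (k * l) * Real.cosh (k * r t) -
    Real.sinh (k * l) * Real.sinh (k * r t) * x t with hΦ
  -- continuity
  have hrc : ContinuousOn r (Icc 0 1) := by
    have h1 : ContinuousOn (fun t => g.ip m (c t) (c t)) (Icc 0 1) := by fun_prop
    exact h1.sqrt
  have hxc : ContinuousOn x (Icc 0 1) := by
    have h1 : ContinuousOn (fun t => g.ip m u (c t)) (Icc 0 1) := by fun_prop
    exact (hrc.inv₀ fun t ht => (hr0 t ht).ne').mul h1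
  have hΦc : ContinuousOn Φ (Icc 0 1) := by
    have h1 : ContinuousOn (fun t => k * r t) (Icc 0 1) := continuousOn_const.mul hrc
    have h2 : ContinuousOn (fun t => Real.cosh (k * r t)) (Icc 0 1) :=
      Real.continuous_cosh.comp_continuousOn h1
    have h3 : ContinuousOn (fun t => Real.sinh (k * r t)) (Icc 0 1) :=
      Real.continuous_sinh.comp_continuousOn h1
    exact (continuousOn_const.mul h2).sub ((continuousOn_const.mul h3).mul hxc)
  -- derivative
  have hder : ∀ t ∈ Ioo (0 : ℝ) 1, ∃ d, HasDerivAt Φ d t ∧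
      d ≤ k * L * Real.sqrt (Φ t ^ 2 - 1) := by
    intro t ht
    have ht' : t ∈ Icc (0 : ℝ) 1 := Ioo_subset_Icc_self ht
    have hrt := hr0 t ht'
    obtain ⟨c', hc', hW⟩ := speed_lift he hk hg hI w c hc h ht hrt (hr2 t)
    set z := c' - (g.ip m (c t) c' / r t ^ 2) • c t with hz
    set ρ := g.ip m (c t) c' / r t with hρ
    have hvz : g.ip m (c t) z = 0 := by
      rw [hz]
      simp only [map_sub, map_smul, smul_eq_mul]
      rw [← hr2 t]
      field_simp
      ring
    have hN : HasDerivAt (fun s => g.ip m (c s) (c s)) (g.ip m c' (c t) + g.ip m (c t) c') t := by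
      have h1 : HasDerivAt (fun s => g.ip m (c s)) (g.ip m c') t :=
        (g.ip m).hasFDerivAt.comp_hasDerivAt t hc'
      exact h1.clm_apply hc'
    have hrd : HasDerivAt r ρ t := by
      refine (hN.sqrt (hpos t ht').ne').congr_deriv ?_
      rw [g.ip_symm m c' (c t), hρ]
      have : Real.sqrt (g.ip m (c t) (c t)) = r t := rfl
      rw [this]
      field_simp
      ring
    have hcd : HasDerivAt (fun s => g.ip m u (c s)) (g.ip m u c') t :=
      (g.ip m u).hasFDerivAt.comp_hasDerivAt t hc'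
    have hxd : HasDerivAt x ((r t)⁻¹ * g.ip m u z) t := by
      refine ((hrd.inv hrt.ne').mul hcd).congr_deriv ?_
      rw [hz]
      simp only [map_sub, map_smul, smul_eq_mul, Pi.inv_apply]
      rw [hρ]
      field_simp
      ring
    have hkr : HasDerivAt (fun s => k * r s) (k * ρ) t := hrd.const_mul k
    have hΦd := ((hkr.cosh).const_mul (Real.cosh (k * l))).sub
      (((hkr.sinh).const_mul (Real.sinh (k * l))).mul hxd)
    refine ⟨_, hΦd, ?_⟩
    -- Cauchy-Schwarz facts
    have hcs : ∀ a b : E, (g.ip m a b) ^ 2 ≤ g.ip m a a * g.ip m b b := by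
      intro a b
      have h1 := cs_form (g.ip m) (g.ip_symm m) hipn a b
      have h2 := cs_form (g.ip m) (g.ip_symm m) hipn (-a) b
      simp only [map_neg, neg_apply, neg_neg] at h2
      have h3 : |g.ip m a b| ≤ Real.sqrt (g.ip m a a) * Real.sqrt (g.ip m b b) := abs_le'.2 ⟨h1, h2⟩
      have h4 := pow_le_pow_left₀ (abs_nonneg _) h3 2
      rw [sq_abs, mul_pow, Real.sq_sqrt (hipn a), Real.sq_sqrt (hipn b)] at h4
      exact h4
    have hx1 : x t ^ 2 ≤ 1 := by
      have h1 := hcs u (c t)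
      rw [hu, one_mul, ← hr2 t] at h1
      rw [hx]
      simp only [mul_pow, inv_pow]
      rw [inv_mul_le_iff₀ (by positivity), mul_one]
      exact h1
    have hy : g.ip m u z ^ 2 ≤ (1 - x t ^ 2) * g.ip m z z := by
      have h1 := hcs (u - (x t * (r t)⁻¹) • c t) z
      have h2 : g.ip m (u - (x t * (r t)⁻¹) • c t) z = g.ip m u z := by
        simp only [map_sub, map_smul, sub_apply, smul_apply, smul_eq_mul]
        rw [hvz, mul_zero, sub_zero]
      have h3 : g.ip m (u - (x t * (r t)⁻¹) • c t) (u - (x t * (r t)⁻¹) • c t) = 1 - x t ^ 2 := by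
        simp only [map_sub, map_smul, sub_apply, smul_apply, smul_eq_mul]
        rw [g.ip_symm m (c t) u, ← hr2 t, hu]
        have h4 : g.ip m u (c t) = r t * x t := by rw [hx]; field_simp
        rw [h4]
        field_simp
        ring
      rw [h2, h3] at h1
      exact h1
    have ha : Real.cosh (k * l) ^ 2 = 1 + Real.sinh (k * l) ^ 2 := by
      have := Real.cosh_sq (k * l); linarith
    have hC : Real.cosh (k * r t) ^ 2 = 1 + Real.sinh (k * r t) ^ 2 := by
      have := Real.cosh_sq (k * r t); linarith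
    have key := hinge_alg ha hC (hipn z) hx1 hy hW
    have h5 := Real.abs_le_sqrt key
    have h6 : Real.sqrt (((Real.cosh (k * l) * Real.cosh (k * r t) -
        Real.sinh (k * l) * Real.sinh (k * r t) * x t) ^ 2 - 1) * g.ip q w w) =
        L * Real.sqrt (Φ t ^ 2 - 1) := by
      rw [← hL2, Real.sqrt_mul' _ (sq_nonneg L), Real.sqrt_sq hL0, mul_comm]
    rw [h6] at h5
    have h7 := (le_abs_self _).trans h5
    have h8 := mul_le_mul_of_nonneg_left h7 hk.le
    refine le_trans (le_of_eq ?_) (h8.trans (le_of_eq (by ring)))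
    field_simp
    ring
  have h1mem : (1 : ℝ) ∈ Icc (0 : ℝ) 1 := right_mem_Icc.2 zero_le_one
  have hgoal : Real.cosh (k * l) * Real.cosh (k * Real.sqrt (g.ip m (c 1) (c 1))) -
      Real.sinh (k * l) * Real.sinh (k * Real.sqrt (g.ip m (c 1) (c 1))) *
        g.ip m u ((Real.sqrt (g.ip m (c 1) (c 1)))⁻¹ • c 1) = Φ 1 := by
    rw [map_smul, smul_eq_mul]
  rw [hgoal]
  -- value at `0`
  have hr00 : r 0 = l := by
    have : g.ip m (c 0) (c 0) = l ^ 2 := by
      rw [hc0]
      simp only [map_smul, smul_apply, smul_eq_mul]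
      rw [hu]; ring
    rw [hr]
    simp only [this]
    exact Real.sqrt_sq hl.le
  have hΦ0 : Φ 0 = 1 := by
    have hx0 : x 0 = 1 := by
      rw [hx]
      simp only [hr00]
      rw [hc0, map_smul, smul_eq_mul, hu]
      field_simp
    rw [hΦ]
    simp only [hr00, hx0]
    have := Real.cosh_sq (k * l)
    nlinarith [this]
  -- comparison with slope `L + ε`
  have hcmp : ∀ ε : ℝ, 0 < ε → Φ 1 ≤ Real.cosh (k * (L + ε) * 1 + ε) := by
    intro ε hε
    set B : ℝ → ℝ := fun t => Real.cosh (k * (L + ε) * t + ε) with hB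
    have hBd : ∀ t, HasDerivAt B (Real.sinh (k * (L + ε) * t + ε) * (k * (L + ε))) t := by
      intro t
      have h1 : HasDerivAt (fun t => k * (L + ε) * t + ε) (k * (L + ε)) t := by
        simpa using ((hasDerivAt_id t).const_mul (k * (L + ε))).add_const ε
      exact h1.cosh
    -- a starting point
    obtain ⟨s, hs, hsB⟩ : ∃ s ∈ Ioo (0 : ℝ) 1, Φ s ≤ B s := by
      have h0 : Φ 0 < B 0 := by
        rw [hΦ0, hB]
        simp only [mul_zero, zero_add]
        exact Real.one_lt_cosh.2 hε.ne'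
      have hc1 : ContinuousWithinAt Φ (Ioi 0) 0 :=
        ((hΦc 0 (left_mem_Icc.2 zero_le_one)).mono_of_mem_nhdsWithin
          (mem_of_superset (Ioo_mem_nhdsGT zero_lt_one) Ioo_subset_Icc_self))
      have hc2 : ContinuousWithinAt B (Ioi 0) 0 := (hBd 0).continuousAt.continuousWithinAt
      have h2 := hc1.eventually_lt hc2 h0
      have h3 : ∀ᶠ s in 𝓝[>] (0 : ℝ), s ∈ Ioo (0 : ℝ) 1 := Ioo_mem_nhdsGT zero_lt_one
      obtain ⟨s, hs1, hs2⟩ := (h3.and h2).exists
      exact ⟨s, hs1, hs2.le⟩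
    choose! d hd hd' using hder
    have := image_le_of_deriv_right_lt_deriv_boundary (f := Φ) (f' := d) (a := s) (b := 1)
      (hΦc.mono (Icc_subset_Icc_left hs.1.le))
      (fun t ht => (hd t ⟨hs.1.trans_le ht.1, ht.2⟩).hasDerivWithinAt) hsB hBd
      (by
        intro t ht heq
        have ht' : t ∈ Ioo (0 : ℝ) 1 := ⟨hs.1.trans_le ht.1, ht.2⟩
        refine (hd' t ht').trans_lt ?_
        have hpos' : 0 < k * (L + ε) * t + ε := by
          have : 0 ≤ k * (L + ε) * t := mul_nonneg (mul_nonneg hk.le (by linarith)) ht'.1.le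
          linarith
        have hsh : 0 < Real.sinh (k * (L + ε) * t + ε) := Real.sinh_pos_iff.2 hpos'
        have h2 : Real.sqrt (Φ t ^ 2 - 1) = Real.sinh (k * (L + ε) * t + ε) := by
          rw [heq, hB]
          simp only []
          rw [Real.cosh_sq, add_sub_cancel_right, Real.sqrt_sq hsh.le]
        rw [h2]
        have h3 : k * L < k * (L + ε) := mul_lt_mul_of_pos_left (by linarith) hk
        have := mul_lt_mul_of_pos_right h3 hsh
        linarith) (right_mem_Icc.2 hs.2.le)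
    exact this
  -- let `ε → 0`
  have hlim : Tendsto (fun ε : ℝ => Real.cosh (k * (L + ε) * 1 + ε)) (𝓝[>] 0)
      (𝓝 (Real.cosh (k * L))) := by
    have h1 : Continuous fun ε : ℝ => Real.cosh (k * (L + ε) * 1 + ε) := by
      have : Continuous fun ε : ℝ => k * (L + ε) * 1 + ε := by fun_prop
      exact Real.continuous_cosh.comp this
    have h2 := (h1.tendsto 0).mono_left (nhdsWithin_le_nhds (s := Ioi (0 : ℝ)))
    simpa using h2
  exact ge_of_tendsto hlim (by
    filter_upwards [self_mem_nhdsWithin] with ε hε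
    exact hcmp ε hε)

end General

variable {n : ℕ} {M : Type} [TopologicalSpace M] [ChartedSpace (EV n) M]
  [IsManifold 𝓘(ℝ, EV n) ∞ M] [CompactSpace M] [T2Space M]

/-- the initial direction of a class (zero for the trivial class) -/
def uv {E M : Type} [NormedAddCommGroup E] [NormedSpace ℝ E] [TopologicalSpace M]
    (S : ExpSys E M) {x y : M} (α : Cl x y) : E := (S.len α)⁻¹ • S.vec α

theorem len_smul_uv {E M : Type} [NormedAddCommGroup E] [NormedSpace ℝ E] [TopologicalSpace M]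
    (S : ExpSys E M) {x y : M} (α : Cl x y) (h : 0 < S.len α) : S.len α • uv S α = S.vec α := by
  unfold uv
  rw [smul_smul, mul_inv_cancel₀ h.ne', one_smul]

theorem ip_uv {E M : Type} [NormedAddCommGroup E] [NormedSpace ℝ E] [TopologicalSpace M]
    (S : ExpSys E M) {x y : M} (α : Cl x y) (h : 0 < S.len α) :
    S.ip x (uv S α) (uv S α) = 1 := by
  unfold uv
  simp only [map_smul, smul_apply, smul_eq_mul]
  rw [← S.nrm_sq, ← ExpSys.len]
  field_simp

theorem ip_abs_le {E M : Type} [NormedAddCommGroup E] [NormedSpace ℝ E] [TopologicalSpace M]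
    (S : ExpSys E M) (x : M) {u v : E} (hu : S.ip x u u = 1) (hv : S.ip x v v = 1) :
    |S.ip x u v| ≤ 1 := by
  have h1 := S.ip_nonneg x (u + v)
  have h2 := S.ip_nonneg x (u - v)
  rw [S.ip_add, hu, hv] at h1
  rw [S.ip_sub, hu, hv] at h2
  rw [abs_le]
  constructor <;> linarith

/-- along a lift of a geodesic of length `L`, twice the distance to the origin is at least the
sum of the distances at the ends minus `L` -/
theorem lift_far {E M : Type} [NormedAddCommGroup E] [NormedSpace ℝ E] [TopologicalSpace M]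
    (S : ExpSys E M) {x y : M} (w : E) (C : ℝ → E) (hCc : Continuous C)
    (hCl : ∀ t ∈ Icc (0 : ℝ) 1, S.e x (C t) = S.e y (t • w)) :
    ∀ t ∈ Icc (0 : ℝ) 1, S.nrm x (C 0) + S.nrm x (C 1) - S.nrm y w ≤ 2 * S.nrm x (C t) := by
  intro t ht
  have ht1 : 0 ≤ 1 - t := by linarith [ht.2]
  have h1 := S.compare x y (t • w) (fun s => C (s * t)) (by fun_prop) (by
    intro s hs
    have hst : s * t ∈ Icc (0 : ℝ) 1 :=
      ⟨mul_nonneg hs.1 ht.1, mul_le_one₀ hs.2 ht.1 ht.2⟩
    rw [hCl _ hst, smul_smul])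
  simp only [one_mul, zero_mul] at h1
  have h2 : S.nrm x (C t - C 0) ≤ t * S.nrm y w := by
    have h3 : S.nrm x (C t - C 0) ≤ S.nrm y (t • w) := Real.sqrt_le_sqrt h1
    rwa [C1.nrm_smul, abs_of_nonneg ht.1] at h3
  obtain ⟨w', hw', hsh⟩ := S.shift y w t
  have h1' := S.compare x (S.e y (t • w)) ((1 - t) • w') (fun s => C (t + s * (1 - t)))
    (by fun_prop) (by
    intro s hs
    have h4 : 0 ≤ s * (1 - t) := mul_nonneg hs.1 ht1
    have h5 : s * (1 - t) ≤ 1 * (1 - t) := mul_le_mul_of_nonneg_right hs.2 ht1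
    have hst : t + s * (1 - t) ∈ Icc (0 : ℝ) 1 := ⟨by linarith [ht.1], by linarith⟩
    rw [hCl _ hst, hsh, smul_smul])
  simp only [one_mul, zero_mul, add_zero, add_sub_cancel] at h1'
  have h2' : S.nrm x (C 1 - C t) ≤ (1 - t) * S.nrm y w := by
    have h3 : S.nrm x (C 1 - C t) ≤ S.nrm (S.e y (t • w)) ((1 - t) • w') :=
      Real.sqrt_le_sqrt h1'
    rw [C1.nrm_smul, abs_of_nonneg ht1] at h3
    have h4 : S.nrm (S.e y (t • w)) w' = S.nrm y w := by
      unfold ExpSys.nrm
      rw [hw']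
    rwa [h4] at h3
  have h3 := S.nrm_add x (C t) (C 0 - C t)
  have h4 : S.nrm x (C 0 - C t) = S.nrm x (C t - C 0) := by rw [← S.nrm_neg, neg_sub]
  rw [add_sub_cancel, h4] at h3
  have h3' := S.nrm_add x (C t) (C 1 - C t)
  rw [add_sub_cancel] at h3'
  linarith

/-- The hyperbolic hinge comparison: in curvature `≤ -k²` the side opposite to the angle is at
least as long as in the hyperbolic plane of curvature `-k²`. -/
theorem hinge_cl {g : RMetric (EV n) M} {h : Npc (mt g)} {k : ℝ} (hk : 0 < k)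
    (hg : CurvLE (mt g) (k ^ 2)) {x y z : M} (α : Cl x y) (β : Cl x z)
    (hα : 0 < (sys g h).len α) (hβ : 0 < (sys g h).len β) :
    Real.cosh (k * (sys g h).len α) * Real.cosh (k * (sys g h).len β) -
      Real.sinh (k * (sys g h).len α) * Real.sinh (k * (sys g h).len β) *
        (sys g h).ip x (uv (sys g h) α) (uv (sys g h) β) ≤
      Real.cosh (k * (sys g h).len (α.symm.trans β)) := by
  set S := sys g h with hS
  set τ := α.symm.trans β with hτ
  have hατ : α.trans τ = β := C1.trans_cancel_left α β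
  set L := S.len τ with hL
  have hL0 : 0 ≤ L := S.len_nonneg _
  have hsα : 0 ≤ Real.sinh (k * S.len α) := Real.sinh_nonneg_iff.2 (mul_nonneg hk.le hα.le)
  have hsβ : 0 ≤ Real.sinh (k * S.len β) := Real.sinh_nonneg_iff.2 (mul_nonneg hk.le hβ.le)
  have hab := abs_le.1 (ip_abs_le S x (ip_uv S α hα) (ip_uv S β hβ))
  rcases le_or_gt (S.len α + S.len β) L with hbig | hsmall
  · have h1 : Real.cosh (k * S.len α + k * S.len β) ≤ Real.cosh (k * L) := by
      apply Real.cosh_le_cosh.2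
      rw [abs_of_nonneg (by positivity), abs_of_nonneg (by positivity)]
      nlinarith
    rw [Real.cosh_add] at h1
    refine le_trans ?_ h1
    have h2 : 0 ≤ Real.sinh (k * S.len α) * Real.sinh (k * S.len β) := mul_nonneg hsα hsβ
    nlinarith [hab.1]
  set w := S.vec τ with hw
  set γ := S.rayTo y z w (S.e_vec τ) with hγ
  have hγ0 : γ.toContinuousMap 0 = S.e x (S.vec α) := by
    rw [S.e_vec]; exact γ.source
  set c := (S.cov x).liftPath γ.toContinuousMap (S.vec α) hγ0 with hc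
  have hl : ∀ t, S.e x (c t) = γ t := fun t =>
    congrFun ((S.cov x).liftPath_lifts γ.toContinuousMap (S.vec α) hγ0) t
  have hc0 : c 0 = S.vec α := (S.cov x).liftPath_zero _ _ _
  have hc1 : S.vec β = c 1 := by
    have := S.vec_trans α γ c hc0 hl
    rw [← this, ← S.eq_rayTo τ, hατ]
  set C : ℝ → EV n := fun t => c (projIcc 0 1 zero_le_one t) with hC
  have hCc : Continuous C := by fun_prop
  have hCl : ∀ t ∈ Icc (0 : ℝ) 1, S.e x (C t) = S.e y (t • w) := by
    intro t ht
    simp only [hC]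
    rw [projIcc_of_mem _ ht, hl]
    rfl
  have e1 : C 1 = c 1 := by simp only [hC]; rw [projIcc_right]; rfl
  have e0 : C 0 = c 0 := by simp only [hC]; rw [projIcc_left]; rfl
  have hnw : S.nrm y w = L := rfl
  -- the lift stays far from the origin
  have hfar : ∀ t ∈ Icc (0 : ℝ) 1, 0 < S.nrm x (C t) := by
    intro t ht
    have h1 := lift_far S w C hCc hCl t ht
    rw [e1, e0, hc0, ← hc1] at h1
    have h5 : S.nrm x (S.vec α) = S.len α := rfl
    have h6 : S.nrm x (S.vec β) = S.len β := rfl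
    rw [h5, h6, hnw] at h1
    linarith
  have hpos : ∀ t ∈ Icc (0 : ℝ) 1, 0 < (mt g).ip x (C t) (C t) := by
    intro t ht
    have h1 := hfar t ht
    have h2 := S.nrm_sq x (C t)
    have h3 : 0 < S.ip x (C t) (C t) := by rw [← h2]; positivity
    exact h3
  have key := hinge_of (P255.isExp_expg (mt g)) hk hg (m := x) (q := y)
    (((P255.isExp_expg (mt g)).rauchAt h x).injAt) w C hCc.continuousOn hCl hpos
    (u := uv S α) (l := S.len α) hα (ip_uv S α hα) (by rw [e0, hc0, len_smul_uv S α hα])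
  have i1 : Real.sqrt ((mt g).ip x (C 1) (C 1)) = S.len β := by
    rw [e1, ← hc1]; rfl
  have i2 : Real.sqrt ((mt g).ip y w w) = L := rfl
  rw [i1, i2] at key
  rw [e1, ← hc1] at key
  exact key

end Vale.Agent.P207
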