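import Vale.Agent.P207.C1.Area
import Vale.Agent.P207.C1.Final
import Vale.Agent.P207.Q.Ruelle

/-!
# P207: equality of the entropies makes `tr U - h` a coboundary

If the Liouville entropy equals the topological entropy and `t` is a continuous function with
`jac exp ≍ exp (∫ t)` (up to subexponential factors from above, up to a constant and the factor
`r ^ (n - 1)` from below), then `t - h` is the coboundary of an integrable function.
-/

open scoped Manifold ContDiff ENNReal Topology
open Bundle MeasureTheory Set Filter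

noncomputable section

namespace Vale.Agent.P207

open Vale.Agent.P255 (RMetric coefIn Gam Riem IsGeo Metric Npc ExpSys toMetric geo expg cc)
open Vale.Agent.P207.Q (MFlow WW)

variable {n : ℕ} {M : Type} [TopologicalSpace M] [ChartedSpace (EV n) M]
  [IsManifold 𝓘(ℝ, EV n) ∞ M] [CompactSpace M] [T2Space M] {g : RMetric (EV n) M}

/-- The upper bound of the Jacobian of the exponential map (Ruelle's inequality). -/
def JacUpper (φ : ℝ → UT g → UT g) (t : UT g → ℝ) : Prop :=
  ∀ e > 0, ∃ C : ℝ, ∀ (p : UT g) (r : ℝ), 0 ≤ r →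
    jac g p.pt (r • (p.vec : EV n)) ≤
      C * dens0 g p.pt * Real.exp ((∫ s in (0 : ℝ)..r, t (φ s p)) + e * r)

/-- The lower bound of the Jacobian of the exponential map. -/
def JacLower (φ : ℝ → UT g → UT g) (t : UT g → ℝ) : Prop :=
  ∃ c : ℝ, 0 < c ∧ ∀ (p : UT g) (r : ℝ), 1 ≤ r →
    c * dens0 g p.pt * Real.exp (∫ s in (0 : ℝ)..r, t (φ s p)) ≤
      r ^ (n - 1) * jac g p.pt (r • (p.vec : EV n))

/-- Equality of the entropies: `∫ t dm = h`. -/
theorem integral_eq_of_entropy_eq (hn : 2 ≤ n) [ConnectedSpace M] [MeasurableSpace M]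
    [BorelSpace M] {φ : ℝ → UT g → UT g} (hφ : IsGeoFlow g φ) (h : NegCurvature g)
    {μ : Measure M} {m : Measure (UT g)} (hμ : IsRiemVol g μ) (hm : IsLiouville g μ m)
    (heq : ksEntropy m (φ 1) = topEntropy (φ 1)) {t : UT g → ℝ} (ht : Continuous t)
    (hU : JacUpper φ t) (hL : JacLower φ t) :
    topEntropy (φ 1) ≠ ⊤ ∧ 0 < (topEntropy (φ 1)).toReal ∧
      ∫ p, t p ∂m = (topEntropy (φ 1)).toReal := by
  have hn1 : 1 ≤ n := by omega
  have := hm.1
  have htop : topEntropy (φ 1) ≠ ⊤ := by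
    rw [← heq]
    exact ksEntropy_ne_top hφ (npc_of_neg h)
      (fun s => IsLiouville.measurePreserving hn1 hφ hμ hm s)
  have hpos : 0 < (topEntropy (φ 1)).toReal :=
    ENNReal.toReal_pos (topEntropy_pos hn hφ h).ne' htop
  have hG := growthLE_top hn hφ h htop hμ hm
  obtain ⟨c, hc, hj⟩ := hL
  have h1 := Area.integral_le_of_growth hn1 hφ hμ hm (npc_of_neg h) hG ht hc hj
  have h2 := Q.ksEntropy_liouville_le_of_jac hn1 hφ hμ hm (npc_of_neg h) ht hU
  rw [heq] at h2
  refine ⟨htop, hpos, le_antisymm h1 ?_⟩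
  have h3 := ENNReal.toReal_mono ENNReal.ofReal_ne_top h2
  rcases le_or_gt 0 (∫ p, t p ∂m) with h4 | h4
  · rwa [ENNReal.toReal_ofReal h4] at h3
  · rw [ENNReal.ofReal_of_nonpos h4.le, ENNReal.toReal_zero] at h3
    linarith

/-- Equality of the entropies: `t - h` is the coboundary of an integrable function `ψ`, which is
invariant under the measure preserving symmetries of the flow and of `t`. -/
theorem exists_psi (hn : 2 ≤ n) [ConnectedSpace M] [MeasurableSpace M] [BorelSpace M]
    {φ : ℝ → UT g → UT g} (hφ : IsGeoFlow g φ) (h : NegCurvature g)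
    {μ : Measure M} {m : Measure (UT g)} (hμ : IsRiemVol g μ) (hm : IsLiouville g μ m)
    (heq : ksEntropy m (φ 1) = topEntropy (φ 1)) {t : UT g → ℝ} (ht : Continuous t)
    (hU : JacUpper φ t) (hL : JacLower φ t) :
    ∃ ψ : UT g → ℝ, Measurable ψ ∧ Integrable ψ m ∧
      (∀ T, ∀ᵐ p ∂m, ψ (φ T p) - ψ p =
        WW φ (fun p => t p - (topEntropy (φ 1)).toReal) T p) ∧
      ∀ τ : UT g → UT g, MeasurePreserving τ m m → (∀ T p, τ (φ T p) = φ T (τ p)) →
        (∀ p, t (τ p) = t p) → ∀ᵐ p ∂m, ψ (τ p) = ψ p := by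
  have hn1 : 1 ≤ n := by omega
  have := hm.1
  have := compactSpace_UT g
  obtain ⟨htop, hpos, hint⟩ := integral_eq_of_entropy_eq hn hφ h hμ hm heq ht hU hL
  set H := (topEntropy (φ 1)).toReal with hH
  have hG := growthLE_top hn hφ h htop hμ hm
  obtain ⟨c, hc, hj⟩ := hL
  obtain ⟨C, hC⟩ := Area.exists_WW_bound hn1 hφ hμ hm (npc_of_neg h) hG ht hc hj
  obtain ⟨B, hB0, hB⟩ := exists_abs_le ht
  have hti : Integrable t m :=
    ht.integrable_of_hasCompactSupport (HasCompactSupport.of_compactSpace _)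
  obtain ⟨ψ, h1, h2, h3, h4⟩ := (Area.mflow hn1 hφ hμ hm).exists_coboundary
    (w := fun p => t p - H) (K := B + |H|) (C := C) (ht.measurable.sub_const H)
    (fun p => (abs_sub _ _).trans (add_le_add (hB p) le_rfl)) (by
      rw [integral_sub hti (integrable_const H), integral_const, hint]
      simp) (fun k => hC k (Nat.cast_nonneg k))
  exact ⟨ψ, h1, h2, h3, fun τ hτ hτφ hτt => h4 τ hτ hτφ fun p => by rw [hτt]⟩

end Vale.Agent.P207
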