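import Vale.Agent.P207.C1.Conseq
import Vale.Agent.P207.Rays

/-!
# P207, block C1: supermultiplicativity of the number of loops
-/

open scoped Manifold ContDiff ENNReal Topology unitInterval
open Bundle MeasureTheory Set Filter

noncomputable section

namespace Vale.Agent.P207.C1

open Vale.Agent.P255
open Path.Homotopic.Quotient

variable {E M : Type} [NormedAddCommGroup E] [NormedSpace ℝ E] [TopologicalSpace M]
variable {S : ExpSys E M} {k : ℝ}

/-- Among three loops with separated directions (at both ends) one can be inserted between any two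
classes with a bounded loss of length. -/
theorem exists_connectors (hS : HC S k) (hk : 0 < k) {o : M} (v : Fin 3 → E)
    (hv : ∀ i, S.nrm o (v i) = 1) (hsep : ∀ i j, i ≠ j → 1 ≤ S.nrm o (v i - v j))
    (hloop : ∀ i, ∀ l : ℝ, 0 < l → ∃ a : Cl o o, l ≤ S.len a ∧
      S.len ((ray S o (v i) l).symm.trans a) ≤ S.len a - l + 1 ∧
      S.len ((ray S o (-(v i)) l).symm.trans a.symm) ≤ S.len a - l + 1) :
    ∃ (c : Fin 3 → Cl o o) (C : ℝ), 0 ≤ C ∧ ∀ {x y : M} (g : Cl x o) (q : Cl o y), ∃ j,
      S.len g + S.len q - C ≤ S.len (g.trans ((c j).trans q)) := by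
  set Cθ := Real.log (16 / (1 / 4 : ℝ) ^ 2) / k with hCθ
  set Cφ := Real.log (16 / (1 / 8 : ℝ) ^ 2) / k with hCφ
  have hCθ0 : 0 ≤ Cθ := div_nonneg (Real.log_nonneg (by norm_num)) hk.le
  have hCφ0 : 0 ≤ Cφ := div_nonneg (Real.log_nonneg (by norm_num)) hk.le
  set l := Cθ + 1 + Real.log 32 / k with hl
  have hlog32 : 0 < Real.log 32 / k := div_pos (Real.log_pos (by norm_num)) hk
  have hl0 : 0 < l := by rw [hl]; positivity
  have hsmall : ∀ P : ℝ, Real.log 32 / k ≤ P → 4 * Real.exp (-(k * P)) ≤ 1 / 8 := by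
    intro P hP
    have h1 : Real.log 32 ≤ k * P := by
      rw [div_le_iff₀ hk] at hP; linarith
    have h2 : Real.exp (-(k * P)) ≤ Real.exp (-Real.log 32) := Real.exp_le_exp.2 (by linarith)
    rw [Real.exp_neg (Real.log 32), Real.exp_log (by norm_num)] at h2
    linarith
  choose a hal ha1 ha2 using fun i => hloop i l hl0
  have hapos : ∀ i, 0 < S.len (a i) := fun i => hl0.trans_le (hal i)
  have hraylen : ∀ w : E, S.nrm o w = 1 → S.len (ray S o w l) = l := by
    intro w hw
    rw [len_ray, hw, mul_one, abs_of_pos hl0]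
  have huvray : ∀ w : E, S.nrm o w = 1 → uv S (ray S o w l) = w := by
    intro w hw
    unfold uv
    rw [hraylen w hw, vec_ray, smul_smul, inv_mul_cancel₀ hl0.ne', one_smul]
  have hnv : ∀ i, S.nrm o (-(v i)) = 1 := fun i => by rw [S.nrm_neg, hv]
  have hd1 : ∀ i, S.nrm o (v i - uv S (a i)) ≤ 1 / 8 := by
    intro i
    have h1 := angle_le_of_len hS hk (ray S o (v i) l) (a i)
      (by rw [hraylen _ (hv i)]; exact hl0) (hapos i) (P := l - 1 / 2)
      (by rw [hraylen _ (hv i)]; linarith [ha1 i])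
    rw [huvray _ (hv i)] at h1
    exact h1.trans (hsmall _ (by rw [hl]; linarith))
  have hd2 : ∀ i, S.nrm o (-(v i) - uv S (a i).symm) ≤ 1 / 8 := by
    intro i
    have h1 := angle_le_of_len hS hk (ray S o (-(v i)) l) (a i).symm
      (by rw [hraylen _ (hnv i)]; exact hl0) (by rw [S.len_symm]; exact hapos i) (P := l - 1 / 2)
      (by rw [hraylen _ (hnv i), S.len_symm]; linarith [ha2 i])
    rw [huvray _ (hnv i)] at h1
    exact h1.trans (hsmall _ (by rw [hl]; linarith))
  -- at most one index is bad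
  have htri : ∀ p q r : E, S.nrm o (p - r) ≤ S.nrm o (p - q) + S.nrm o (q - r) := by
    intro p q r
    have := S.nrm_add o (p - q) (q - r)
    rwa [sub_add_sub_cancel] at this
  have hcomm : ∀ p q : E, S.nrm o (p - q) = S.nrm o (q - p) := by
    intro p q; rw [← S.nrm_neg, neg_sub]
  have hbad1 : ∀ w : E, ∀ i j, S.nrm o (w - uv S (a i)) < 1 / 4 →
      S.nrm o (w - uv S (a j)) < 1 / 4 → i = j := by
    intro w i j hi hj
    by_contra hne
    have h1 := hsep i j hne
    have h2 := htri (v i) (uv S (a i)) (v j)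
    have h3 := htri (uv S (a i)) w (v j)
    have h4 := htri w (uv S (a j)) (v j)
    rw [hcomm (uv S (a i)) w] at h3
    rw [hcomm (uv S (a j)) (v j)] at h4
    linarith [hd1 i, hd1 j]
  have hbad2 : ∀ w : E, ∀ i j, S.nrm o (w - uv S (a i).symm) < 1 / 4 →
      S.nrm o (w - uv S (a j).symm) < 1 / 4 → i = j := by
    intro w i j hi hj
    by_contra hne
    have h1 := hsep i j hne
    have h0 : S.nrm o (v i - v j) = S.nrm o (-(v i) - -(v j)) := by
      rw [← S.nrm_neg]; congr 1; abel
    rw [h0] at h1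
    have h2 := htri (-(v i)) (uv S (a i).symm) (-(v j))
    have h3 := htri (uv S (a i).symm) w (-(v j))
    have h4 := htri w (uv S (a j).symm) (-(v j))
    rw [hcomm (uv S (a i).symm) w] at h3
    rw [hcomm (uv S (a j).symm) (-(v j))] at h4
    linarith [hd2 i, hd2 j]
  have hchoice : ∀ w w' : E, ∃ j, 1 / 4 ≤ S.nrm o (w - uv S (a j)) ∧
      1 / 4 ≤ S.nrm o (w' - uv S (a j).symm) := by
    intro w w'
    by_contra hcon
    push Not at hcon
    have h : ∀ j, S.nrm o (w - uv S (a j)) < 1 / 4 ∨ S.nrm o (w' - uv S (a j).symm) < 1 / 4 := by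
      intro j
      by_cases hj : 1 / 4 ≤ S.nrm o (w - uv S (a j))
      · exact Or.inr (hcon j hj)
      · exact Or.inl (not_le.1 hj)
    have e1 := hbad1 w
    have e2 := hbad2 w'
    rcases h 0 with h0 | h0 <;> rcases h 1 with h1 | h1 <;> rcases h 2 with h2 | h2
    · exact absurd (e1 0 1 h0 h1) (by decide)
    · exact absurd (e1 0 1 h0 h1) (by decide)
    · exact absurd (e1 0 2 h0 h2) (by decide)
    · exact absurd (e2 1 2 h1 h2) (by decide)
    · exact absurd (e1 1 2 h1 h2) (by decide)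
    · exact absurd (e2 0 2 h0 h2) (by decide)
    · exact absurd (e2 0 1 h0 h1) (by decide)
    · exact absurd (e2 0 1 h0 h1) (by decide)
  refine ⟨a, Cθ + Cφ, by positivity, fun {x y} g q => ?_⟩
  obtain ⟨j, hj1, hj2⟩ := hchoice (uv S g.symm) (uv S q)
  refine ⟨j, ?_⟩
  -- `a_j q`
  rw [hcomm] at hj2
  have h1 := len_ge_of_angle hS hk (a j).symm q (θ := 1 / 4) (by norm_num) (by norm_num) hj2
  rw [S.len_symm, ExpSys.symm_symm', ← hCθ] at h1
  have hq := S.len_nonneg q
  have hajl := hal j
  have h2 : 0 < S.len ((a j).trans q) := by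
    have : Cθ < S.len (a j) := by rw [hl] at hajl; linarith
    linarith
  have h3 : (a j).symm.trans ((a j).trans q) = q := symm_trans_cancel_left _ _
  have h4 := angle_le_of_len hS hk (a j) ((a j).trans q) (hapos j) h2
    (P := S.len (a j) - Cθ / 2) (by rw [h3]; linarith)
  have h5 := h4.trans (hsmall _ (by rw [hl] at hajl; linarith))
  have h6 : 1 / 8 ≤ S.nrm o (uv S g.symm - uv S ((a j).trans q)) := by
    have := htri (uv S g.symm) (uv S ((a j).trans q)) (uv S (a j))
    rw [hcomm (uv S ((a j).trans q)) (uv S (a j))] at this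
    linarith
  have h7 := len_ge_of_angle hS hk g.symm ((a j).trans q) (θ := 1 / 8) (by norm_num)
    (by norm_num) h6
  rw [S.len_symm, ExpSys.symm_symm', ← hCφ] at h7
  linarith [hapos j]

/-- The points which almost lie on the geodesic of `γ`, at a given distance, are close to a fixed
point. -/
theorem exists_center (hS : HC S k) (hk : 0 < k) (C : ℝ) (hC : 0 ≤ C) :
    ∃ D : ℝ, ∀ {o z : M} (γ : Cl o z) (a : ℝ), 0 ≤ a → ∃ (p : M) (ρ : Cl o p),
      ∀ {y : M} (g : Cl o y), a ≤ S.len g → S.len g ≤ a + 1 →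
        S.len g + S.len (g.symm.trans γ) ≤ S.len γ + C → S.len (ρ.symm.trans g) ≤ D := by
  have hek : 0 < 1 - Real.exp (-k) := by
    have : Real.exp (-k) < 1 := by rw [Real.exp_lt_one_iff]; linarith
    linarith
  set Q := 4 * Real.exp (k / 2 + k * C) / (1 - Real.exp (-k)) with hQ
  have hQ0 : 0 < Q := by positivity
  refine ⟨max (Real.log Q / k) (1 / 2 + C), fun {o z} γ a ha => ?_⟩
  have hsymm : ∀ {y : M} (g : Cl o y), S.len (γ.symm.trans g) = S.len (g.symm.trans γ) := by
    intro y g
    rw [← S.len_symm, ExpSys.symm_trans', ExpSys.symm_symm']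
  rcases le_or_gt (S.len γ) (a + 1 / 2) with hle | hgt
  · refine ⟨z, γ, fun {y} g h1 h2 h3 => ?_⟩
    rw [hsymm]
    exact le_trans (by linarith) (le_max_right _ _)
  · have hγ : 0 < S.len γ := by linarith
    set t := (a + 1 / 2) / S.len γ with ht
    have ht0 : 0 < t := by positivity
    have ht1 : t < 1 := by rw [ht, div_lt_one hγ]; exact hgt
    have htγ : t * S.len γ = a + 1 / 2 := by rw [ht]; field_simp
    refine ⟨_, G1.part S γ t, fun {y} g h1 h2 h3 => ?_⟩
    have h4 := stewart hS hk γ ht0 ht1 hγ g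
    rw [hsymm, sub_mul, one_mul, htγ] at h4
    set d := S.len ((G1.part S γ t).symm.trans g) with hd
    set T := S.len (g.symm.trans γ) with hT
    have hT0 : 0 ≤ T := S.len_nonneg _
    have hg0 := S.len_nonneg g
    -- bounds
    have hsinh : ∀ x : ℝ, Real.sinh x ≤ Real.exp x / 2 := by
      intro x
      rw [Real.sinh_eq]
      have := Real.exp_pos (-x)
      linarith
    have b1 : Real.sinh (k * (S.len γ - (a + 1 / 2))) * Real.cosh (k * S.len g) ≤
        Real.exp (k * S.len γ) * Real.exp (k / 2 + k * C) / 2 := by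
      have c1 : Real.cosh (k * S.len g) ≤ Real.exp (k * (a + 1)) :=
        (cosh_le_exp (mul_nonneg hk.le hg0)).trans
          (Real.exp_le_exp.2 (mul_le_mul_of_nonneg_left h2 hk.le))
      have c2 := mul_le_mul (hsinh (k * (S.len γ - (a + 1 / 2)))) c1 (Real.cosh_pos _).le
        (by positivity)
      refine c2.trans ?_
      rw [div_mul_eq_mul_div, ← Real.exp_add, ← Real.exp_add]
      apply div_le_div_of_nonneg_right _ (by norm_num)
      apply Real.exp_le_exp.2
      have := mul_nonneg hk.le hC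
      nlinarith
    have b2 : Real.sinh (k * (a + 1 / 2)) * Real.cosh (k * T) ≤
        Real.exp (k * S.len γ) * Real.exp (k / 2 + k * C) / 2 := by
      have c1 : Real.cosh (k * T) ≤ Real.exp (k * (S.len γ + C - a)) :=
        (cosh_le_exp (mul_nonneg hk.le hT0)).trans
          (Real.exp_le_exp.2 (mul_le_mul_of_nonneg_left (by linarith) hk.le))
      have c2 := mul_le_mul (hsinh (k * (a + 1 / 2))) c1 (Real.cosh_pos _).le
        (by positivity)
      refine c2.trans ?_
      rw [div_mul_eq_mul_div, ← Real.exp_add, ← Real.exp_add]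
      apply div_le_div_of_nonneg_right _ (by norm_num)
      apply Real.exp_le_exp.2
      nlinarith
    have b3 : Real.exp (k * S.len γ) * (1 - Real.exp (-k)) / 2 ≤ Real.sinh (k * S.len γ) := by
      rw [Real.sinh_eq]
      have : Real.exp (-(k * S.len γ)) ≤ Real.exp (k * S.len γ) * Real.exp (-k) := by
        rw [← Real.exp_add]
        apply Real.exp_le_exp.2
        nlinarith
      linarith
    have b4 := exp_le_two_cosh (k * d)
    have hE : 0 < Real.exp (k * S.len γ) := Real.exp_pos _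
    have b5 : Real.exp (k * S.len γ) * (1 - Real.exp (-k)) / 2 * Real.cosh (k * d) ≤
        Real.exp (k * S.len γ) * Real.exp (k / 2 + k * C) := by
      calc _ ≤ Real.sinh (k * S.len γ) * Real.cosh (k * d) :=
            mul_le_mul_of_nonneg_right b3 (Real.cosh_pos _).le
        _ ≤ _ := h4
        _ ≤ _ := by linarith
    have b6 : (1 - Real.exp (-k)) / 2 * Real.cosh (k * d) ≤ Real.exp (k / 2 + k * C) := by
      have : Real.exp (k * S.len γ) * ((1 - Real.exp (-k)) / 2 * Real.cosh (k * d)) ≤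
          Real.exp (k * S.len γ) * Real.exp (k / 2 + k * C) := by linarith
      exact le_of_mul_le_mul_left this hE
    have b7 : Real.exp (k * d) ≤ Q := by
      rw [hQ, le_div_iff₀ hek]
      have := mul_le_mul_of_nonneg_right b4 hek.le
      linarith
    have b8 : k * d ≤ Real.log Q := by
      rw [Real.le_log_iff_exp_le hQ0]; exact b7
    refine le_trans ?_ (le_max_left _ _)
    rw [le_div_iff₀ hk]
    linarith

/-- The number of pairs `(g, q)` with a given product `g c_j q` is bounded, and the length of the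
product is almost the sum of the lengths. -/
theorem windows_of [FiniteDimensional ℝ E] [CompactSpace M] [T1Space M] (hS : HC S k) (hk : 0 < k)
    {o : M} {C : ℝ} (hC : 0 ≤ C) (a : Fin 3 → Cl o o)
    (ha : ∀ {x y : M} (g : Cl x o) (q : Cl o y), ∃ j,
      S.len g + S.len q - C ≤ S.len (g.trans ((a j).trans q))) :
    ∃ (K : ℝ) (c : ℕ), 0 < K ∧ ∀ i j : ℕ, c ≤ i → c ≤ j →
      ({α : Cl o o | ⌈S.len α⌉₊ = i}.ncard : ℝ) * ({α : Cl o o | ⌈S.len α⌉₊ = j}.ncard : ℝ) ≤
        K * ({α : Cl o o | ⌈S.len α⌉₊ ∈ Finset.Icc (i + j - c) (i + j + c)}.ncard : ℝ) := by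
  set L := ∑ i, S.len (a i) with hL
  have hLi : ∀ i, S.len (a i) ≤ L := fun i =>
    Finset.single_le_sum (f := fun i => S.len (a i)) (fun i _ => S.len_nonneg _)
      (Finset.mem_univ i)
  have hL0 : 0 ≤ L := Finset.sum_nonneg fun i _ => S.len_nonneg _
  obtain ⟨D, hD⟩ := exists_center hS hk (C + L) (by positivity)
  obtain ⟨K₀, hK₀⟩ := C1.exists_ncard_le S D
  obtain ⟨c, hc⟩ := exists_nat_ge (C + L + 2)
  have hc1 : 1 ≤ c := by
    have : (1 : ℝ) ≤ c := by linarith
    exact_mod_cast this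
  refine ⟨((3 * K₀ + 1 : ℕ) : ℝ), c, by positivity, fun i j hi hj => ?_⟩
  have hfin : ∀ (T : Finset ℕ), {α : Cl o o | ⌈S.len α⌉₊ ∈ T}.Finite := by
    intro T
    refine (C1.finite_len_le S o o ((∑ t ∈ T, t : ℕ) : ℝ)).subset ?_
    intro α hα
    have h1 : ⌈S.len α⌉₊ ≤ ∑ t ∈ T, t :=
      Finset.single_le_sum (f := fun t : ℕ => t) (fun _ _ => Nat.zero_le _) hα
    have h2 : ((⌈S.len α⌉₊ : ℕ) : ℝ) ≤ ((∑ t ∈ T, t : ℕ) : ℝ) := by exact_mod_cast h1
    exact (Nat.le_ceil _).trans h2
  have hfin1 : ∀ i : ℕ, {α : Cl o o | ⌈S.len α⌉₊ = i}.Finite := by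
    intro i
    have := hfin {i}
    simpa using this
  classical
  set A := (hfin1 i).toFinset with hA
  set B := (hfin1 j).toFinset with hB
  set T := (hfin (Finset.Icc (i + j - c) (i + j + c))).toFinset with hT
  rw [Set.ncard_eq_toFinset_card _ (hfin1 i), Set.ncard_eq_toFinset_card _ (hfin1 j),
    Set.ncard_eq_toFinset_card _ (hfin _), ← hA, ← hB, ← hT]
  choose J hJ using fun (p : Cl o o × Cl o o) => ha p.1 p.2
  set f : Cl o o × Cl o o → Cl o o := fun p => p.1.trans ((a (J p)).trans p.2) with hf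
  have hlen : ∀ p, S.len (f p) ≤ S.len p.1 + S.len p.2 + L := by
    intro p
    have h1 := S.len_trans p.1 ((a (J p)).trans p.2)
    have h2 := S.len_trans (a (J p)) p.2
    have h3 := hLi (J p)
    rw [hf]
    dsimp only
    linarith
  have hbd : ∀ (i : ℕ), c ≤ i → ∀ g : Cl o o, ⌈S.len g⌉₊ = i →
      ((i : ℝ) - 1 ≤ S.len g ∧ S.len g ≤ i) := by
    intro i hi g hg
    have hi0 : i ≠ 0 := by omega
    rw [Nat.ceil_eq_iff hi0, Nat.cast_sub (by omega), Nat.cast_one] at hg
    exact ⟨hg.1.le, hg.2⟩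
  have hmaps : ∀ p ∈ A ×ˢ B, f p ∈ T := by
    intro p hp
    rw [Finset.mem_product] at hp
    have h1 : ⌈S.len p.1⌉₊ = i := (hfin1 i).mem_toFinset.1 hp.1
    have h2 : ⌈S.len p.2⌉₊ = j := (hfin1 j).mem_toFinset.1 hp.2
    obtain ⟨h3, h4⟩ := hbd i hi _ h1
    obtain ⟨h5, h6⟩ := hbd j hj _ h2
    have h7 := hJ p
    have h8 := hlen p
    rw [hT, Set.Finite.mem_toFinset, Set.mem_ofPred_eq, Finset.mem_Icc]
    constructor
    · rw [tsub_le_iff_right]
      have h9 : ((i + j : ℕ) : ℝ) ≤ ((⌈S.len (f p)⌉₊ + c : ℕ) : ℝ) := by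
        push_cast
        have h10 := Nat.le_ceil (S.len (f p))
        have h11 : S.len p.1 + S.len p.2 - C ≤ S.len (f p) := h7
        linarith
      exact_mod_cast h9
    · rw [Nat.ceil_le]
      push_cast
      linarith
  have hfib : ∀ γ ∈ T, ({p ∈ A ×ˢ B | f p = γ}).card ≤ 3 * K₀ + 1 := by
    intro γ _
    have hi1 : (0 : ℝ) ≤ (i : ℝ) - 1 := by
      have : (1 : ℝ) ≤ i := by exact_mod_cast hc1.trans hi
      linarith
    obtain ⟨p₀, ρ, hρ⟩ := hD γ ((i : ℝ) - 1) hi1
    have hfinD := C1.finite_len_le S p₀ o D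
    have h1 : ({p ∈ A ×ˢ B | f p = γ}).card ≤
        ((Finset.univ : Finset (Fin 3)) ×ˢ hfinD.toFinset).card := by
      refine Finset.card_le_card_of_injOn (fun p => (J p, ρ.symm.trans p.1)) ?_ ?_
      · intro p hp
        rw [Finset.mem_coe, Finset.mem_filter, Finset.mem_product] at hp
        obtain ⟨⟨hp1, hp2⟩, hp3⟩ := hp
        have h1 : ⌈S.len p.1⌉₊ = i := (hfin1 i).mem_toFinset.1 hp1
        obtain ⟨h3, h4⟩ := hbd i hi _ h1
        rw [Finset.mem_coe, Finset.mem_product]
        refine ⟨Finset.mem_univ _, ?_⟩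
        rw [Set.Finite.mem_toFinset]
        refine hρ p.1 h3 (by linarith) ?_
        have h5 : p.1.symm.trans γ = (a (J p)).trans p.2 := by
          rw [← hp3, hf]
          exact symm_trans_cancel_left _ _
        rw [h5]
        have h6 := S.len_trans (a (J p)) p.2
        have h7 : S.len p.1 + S.len p.2 - C ≤ S.len γ := by rw [← hp3]; exact hJ p
        have h8 := hLi (J p)
        linarith
      · intro p hp q hq hpq
        rw [Finset.mem_coe, Finset.mem_filter] at hp hq
        have e1 : J p = J q := congrArg Prod.fst hpq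
        have e2 : ρ.symm.trans p.1 = ρ.symm.trans q.1 := congrArg Prod.snd hpq
        have e3 : p.1 = q.1 := C1.trans_left_inj _ e2
        have e4 : f p = f q := hp.2.trans hq.2.symm
        rw [hf] at e4
        dsimp only at e4
        rw [e3, e1] at e4
        have e5 := C1.trans_left_inj _ e4
        have e6 := C1.trans_left_inj _ e5
        exact Prod.ext e3 e6
    refine h1.trans ?_
    rw [Finset.card_product, Finset.card_univ, Fintype.card_fin,
      ← Set.ncard_eq_toFinset_card _ hfinD]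
    have := hK₀ p₀ o
    omega
  have hfinal := Finset.card_le_mul_card_image_of_maps_to hmaps _ hfib
  rw [Finset.card_product] at hfinal
  exact_mod_cast hfinal

end Vale.Agent.P207.C1
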